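import Vale.Agent.P165.Defs

/-!
# Clusters: monotonicity, locality, measurability, independence
-/

namespace Vale.Agent.P165

open MeasureTheory ProbabilityTheory
open scoped ENNReal

variable {V : Type*}

theorem openGraph_adj {G : SimpleGraph V} {ω : Sym2 V → Bool} {x y : V} :
    (openGraph G ω).Adj x y ↔ G.Adj x y ∧ ω s(x, y) = true := Iff.rfl

theorem openGraph_mono {G G' : SimpleGraph V} (h : G ≤ G') (ω : Sym2 V → Bool) :
    openGraph G ω ≤ openGraph G' ω := fun _ _ hxy => ⟨h hxy.1, hxy.2⟩

theorem cluster_mono {G G' : SimpleGraph V} (h : G ≤ G') (ω : Sym2 V → Bool) (x : V) :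
    cluster G ω x ⊆ cluster G' ω x := fun _ hy => hy.mono (openGraph_mono h ω)

theorem mem_cluster_self (G : SimpleGraph V) (ω : Sym2 V → Bool) (x : V) :
    x ∈ cluster G ω x := SimpleGraph.Reachable.refl x

theorem cluster_eq_of_mem {G : SimpleGraph V} {ω : Sym2 V → Bool} {x y : V}
    (h : y ∈ cluster G ω x) : cluster G ω y = cluster G ω x := by
  ext z
  exact ⟨fun hz => SimpleGraph.Reachable.trans h hz,
    fun hz => SimpleGraph.Reachable.trans (SimpleGraph.Reachable.symm h) hz⟩

theorem disjoint_cluster_of_notMem {G : SimpleGraph V} {ω : Sym2 V → Bool} {x y : V}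
    (h : y ∉ cluster G ω x) : Disjoint (cluster G ω x) (cluster G ω y) := by
  rw [Set.disjoint_left]
  intro z hx hy
  exact h (SimpleGraph.Reachable.trans hx (SimpleGraph.Reachable.symm hy))

/-- The clusters of `G` only depend on the variables of its edges. -/
theorem openGraph_congr {G : SimpleGraph V} {ω ω' : Sym2 V → Bool}
    (h : ∀ e ∈ G.edgeSet, ω e = ω' e) : openGraph G ω = openGraph G ω' := by
  ext x y
  simp only [openGraph_adj]
  constructor
  · rintro ⟨a, b⟩; exact ⟨a, (h s(x, y) a) ▸ b⟩
  · rintro ⟨a, b⟩; exact ⟨a, (h s(x, y) a).symm ▸ b⟩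

theorem cluster_congr {G : SimpleGraph V} {ω ω' : Sym2 V → Bool}
    (h : ∀ e ∈ G.edgeSet, ω e = ω' e) (x : V) : cluster G ω x = cluster G ω' x := by
  simp only [cluster, openGraph_congr h]

/-- Clusters are preserved by automorphisms. -/
theorem cluster_map {G : SimpleGraph V} (φ : G ≃g G) (ω : Sym2 V → Bool) (x : V) :
    cluster G (fun e => ω (e.map φ)) x = φ ⁻¹' (cluster G ω (φ x)) := by
  have key : ∀ (ψ : G ≃g G) (σ : Sym2 V → Bool) a b,
      (openGraph G (fun e => σ (e.map ψ))).Reachable a b →
        (openGraph G σ).Reachable (ψ a) (ψ b) := by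
    intro ψ σ a b h
    let f : openGraph G (fun e => σ (e.map ψ)) →g openGraph G σ :=
      ⟨ψ, fun {u v} huv => ⟨ψ.map_adj_iff.2 huv.1, by simpa using huv.2⟩⟩
    exact h.map f
  ext y
  constructor
  · exact key φ ω x y
  · intro h
    have h' := key φ.symm (fun e => ω (e.map φ)) (φ x) (φ y)
    have e1 : (fun e : Sym2 V => (fun e' : Sym2 V => ω (e'.map φ)) (e.map φ.symm)) = ω := by
      funext e; simp [Sym2.map_map]
    rw [e1] at h'
    simpa [cluster] using h' h

theorem countable_of_connected (G : SimpleGraph V) [G.LocallyFinite] (hG : G.Connected) :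
    Countable V := by
  classical
  obtain ⟨o⟩ := hG.nonempty
  let B : ℕ → Finset V := fun n => Nat.rec {o} (fun _ s => s ∪ s.biUnion (fun y => G.neighborFinset y)) n
  have : ∀ {a b : V} (_p : G.Walk a b) (n : ℕ), a ∈ B n → ∃ m, b ∈ B m := by
    intro a b p
    induction p with
    | nil => intro n hn; exact ⟨n, hn⟩
    | @cons u v w h q ih =>
      intro n hn
      exact ih (n + 1) (Finset.mem_union_right _ (Finset.mem_biUnion.2 ⟨u, hn, by simpa using h⟩))
  have hcov : (Set.univ : Set V) ⊆ ⋃ n : ℕ, {b : V | b ∈ B n} := by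
    intro b _
    obtain ⟨p⟩ := hG o b
    obtain ⟨m, hm⟩ := this p 0 (by simp [B])
    exact Set.mem_iUnion.2 ⟨m, hm⟩
  have : (Set.univ : Set V).Countable :=
    (Set.countable_iUnion fun n => Finset.countable_toSet (B n)).mono hcov
  exact Set.countable_univ_iff.1 this

section Measurable

variable [Countable V]

omit [Countable V] in
theorem measurableSet_openGraph_adj (G : SimpleGraph V) (x y : V) :
    MeasurableSet {ω : Sym2 V → Bool | (openGraph G ω).Adj x y} := by
  by_cases h : G.Adj x y
  · have : {ω : Sym2 V → Bool | (openGraph G ω).Adj x y} = (fun ω => ω s(x, y)) ⁻¹' {true} := by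
      ext ω; simp [openGraph_adj, h]
    rw [this]
    exact measurable_pi_apply _ (MeasurableSet.singleton true)
  · have : {ω : Sym2 V → Bool | (openGraph G ω).Adj x y} = ∅ := by
      ext ω; simp [openGraph_adj, h]
    rw [this]; exact MeasurableSet.empty

theorem measurableSet_mem_cluster (G : SimpleGraph V) (x y : V) :
    MeasurableSet {ω : Sym2 V → Bool | y ∈ cluster G ω x} := by
  let R : ℕ → V → Set (Sym2 V → Bool) := fun n => Nat.rec
    (fun a => {_ω | a = y})
    (fun _ r a => ⋃ z, ({ω | (openGraph G ω).Adj a z} ∩ r z)) n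
  have hR : ∀ n a, MeasurableSet (R n a) := by
    intro n
    induction n with
    | zero => intro a; exact MeasurableSet.const _
    | succ n ih =>
      intro a
      exact MeasurableSet.iUnion fun z => (measurableSet_openGraph_adj G a z).inter (ih z)
  have : {ω : Sym2 V → Bool | y ∈ cluster G ω x} = ⋃ n, R n x := by
    ext ω
    simp only [cluster, Set.mem_ofPred_eq, Set.mem_iUnion]
    constructor
    · rintro ⟨p⟩
      clear hR
      induction p with
      | nil => exact ⟨0, rfl⟩
      | @cons u v w h q ih =>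
        obtain ⟨n, hn⟩ := ih
        exact ⟨n + 1, Set.mem_iUnion.2 ⟨v, h, hn⟩⟩
    · rintro ⟨n, hn⟩
      induction n generalizing x with
      | zero => exact (show x = y from hn) ▸ SimpleGraph.Reachable.refl _
      | succ n ih =>
        obtain ⟨z, h, hz⟩ := Set.mem_iUnion.1 hn
        exact h.reachable.trans (ih z hz)
  rw [this]
  exact MeasurableSet.iUnion fun n => hR n x

theorem measurableSet_infinite_cluster (G : SimpleGraph V) (x : V) :
    MeasurableSet {ω : Sym2 V → Bool | (cluster G ω x).Infinite} := by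
  have : {ω : Sym2 V → Bool | (cluster G ω x).Infinite}
      = ⋂ s : Finset V, ⋃ z ∈ {z : V | z ∉ s}, {ω | z ∈ cluster G ω x} := by
    ext ω
    simp only [Set.mem_ofPred_eq, Set.mem_iInter, Set.mem_iUnion, exists_prop]
    constructor
    · intro h s
      obtain ⟨z, hz, hzs⟩ := h.exists_notMem_finset s
      exact ⟨z, hzs, hz⟩
    · intro h hfin
      obtain ⟨z, hzs, hz⟩ := h hfin.toFinset
      exact hzs (hfin.mem_toFinset.2 hz)
  rw [this]
  exact MeasurableSet.iInter fun s => MeasurableSet.biUnion (Set.to_countable _)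
    fun z _ => measurableSet_mem_cluster G x z

end Measurable

section Indep

variable {p : unitInterval}

instance : IsProbabilityMeasure (bondMeasure V p) := by
  unfold bondMeasure; infer_instance

open Classical in
theorem map_piecewise_bondMeasure (E : Set (Sym2 V)) :
    ((bondMeasure V p).prod (bondMeasure V p)).map
      (fun q => E.piecewise q.1 q.2) = bondMeasure V p := by
  unfold bondMeasure
  have hm : Measurable (fun q : (Sym2 V → Bool) × (Sym2 V → Bool) => E.piecewise q.1 q.2) := by
    refine measurable_pi_lambda _ fun e => ?_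
    by_cases he : e ∈ E
    · simpa [Set.piecewise, he, Function.comp_def] using (measurable_pi_apply e).comp measurable_fst
    · simpa [Set.piecewise, he, Function.comp_def] using (measurable_pi_apply e).comp measurable_snd
  refine Measure.eq_infinitePi _ fun s t ht => ?_
  rw [Measure.map_apply hm (MeasurableSet.pi s.countable_toSet fun i _ => ht i)]
  have : (fun q : (Sym2 V → Bool) × (Sym2 V → Bool) => E.piecewise q.1 q.2) ⁻¹'
      ((s : Set (Sym2 V)).pi t)
      = (((s.filter (· ∈ E) : Finset _) : Set (Sym2 V)).pi t) ×ˢ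
        (((s.filter (· ∉ E) : Finset _) : Set (Sym2 V)).pi t) := by
    ext q
    simp only [Set.mem_preimage, Set.mem_pi, Finset.mem_coe, Set.mem_prod, Finset.mem_filter]
    constructor
    · intro h
      exact ⟨fun i hi => by simpa [Set.piecewise, hi.2] using h i hi.1,
        fun i hi => by simpa [Set.piecewise, hi.2] using h i hi.1⟩
    · intro h i hi
      by_cases he : i ∈ E
      · simpa [Set.piecewise, he] using h.1 i ⟨hi, he⟩
      · simpa [Set.piecewise, he] using h.2 i ⟨hi, he⟩
  rw [this, Measure.prod_prod, Measure.infinitePi_pi _ (fun i _ => ht i),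
    Measure.infinitePi_pi _ (fun i _ => ht i), Finset.prod_filter_mul_prod_filter_not]

/-- A function of the variables in `E` and a function of the others are independent. -/
theorem lintegral_mul_of_dep (E : Set (Sym2 V)) (f X : (Sym2 V → Bool) → ℝ≥0∞)
    (hf : Measurable f) (hX : Measurable X)
    (hfE : ∀ ω ω', (∀ e ∈ E, ω e = ω' e) → f ω = f ω')
    (hXE : ∀ ω ω', (∀ e ∉ E, ω e = ω' e) → X ω = X ω') :
    ∫⁻ ω, f ω * X ω ∂bondMeasure V p =
      (∫⁻ ω, f ω ∂bondMeasure V p) * ∫⁻ ω, X ω ∂bondMeasure V p := by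
  classical
  have hm : Measurable (fun q : (Sym2 V → Bool) × (Sym2 V → Bool) => E.piecewise q.1 q.2) := by
    refine measurable_pi_lambda _ fun e => ?_
    by_cases he : e ∈ E
    · simpa [Set.piecewise, he, Function.comp_def] using (measurable_pi_apply e).comp measurable_fst
    · simpa [Set.piecewise, he, Function.comp_def] using (measurable_pi_apply e).comp measurable_snd
  conv_lhs => rw [← map_piecewise_bondMeasure (p := p) E]
  rw [lintegral_map (f := fun ω => f ω * X ω) (hf.mul hX) hm, ← lintegral_prod_mul hf.aemeasurable hX.aemeasurable]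
  refine lintegral_congr fun q => ?_
  rw [hfE (E.piecewise q.1 q.2) q.1 (fun e he => by simp [Set.piecewise, he]),
    hXE (E.piecewise q.1 q.2) q.2 (fun e he => by simp [Set.piecewise, he])]

/-- All pairs in a finite set are open with probability `p ^ card`. -/
theorem bondMeasure_open (E : Finset (Sym2 V)) :
    bondMeasure V p {ω | ∀ e ∈ E, ω e = true} = (ENNReal.ofReal (p : ℝ)) ^ E.card := by
  have : {ω : Sym2 V → Bool | ∀ e ∈ E, ω e = true}
      = (E : Set (Sym2 V)).pi (fun _ => ({true} : Set Bool)) := by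
    ext ω; simp [Set.mem_pi]
  rw [this, bondMeasure, Measure.infinitePi_pi _ (fun _ _ => MeasurableSet.singleton _)]
  rw [Finset.prod_const]
  congr 1
  rw [bernoulliMeasure_apply_of_mem_of_notMem _ (MeasurableSet.singleton _) rfl (by simp)]
  rw [← ENNReal.ofReal_coe_nnreal]
  rfl

theorem measurableSet_open (E : Finset (Sym2 V)) :
    MeasurableSet {ω : Sym2 V → Bool | ∀ e ∈ E, ω e = true} := by
  have : {ω : Sym2 V → Bool | ∀ e ∈ E, ω e = true}
      = (E : Set (Sym2 V)).pi (fun _ => ({true} : Set Bool)) := by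
    ext ω; simp [Set.mem_pi]
  rw [this]
  exact MeasurableSet.pi E.countable_toSet fun _ _ => MeasurableSet.singleton _

/-- Automorphisms preserve the law. -/
theorem measurePreserving_map {G : SimpleGraph V} (φ : G ≃g G) :
    MeasurePreserving (fun (ω : Sym2 V → Bool) (e : Sym2 V) => ω (e.map φ))
      (bondMeasure V p) (bondMeasure V p) := by
  have hm : Measurable (fun (ω : Sym2 V → Bool) (e : Sym2 V) => ω (e.map φ)) :=
    measurable_pi_lambda _ fun e => measurable_pi_apply _
  refine ⟨hm, ?_⟩
  let ψ : Sym2 V ≃ Sym2 V :=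
    ⟨Sym2.map φ, Sym2.map φ.symm, fun e => by simp [Sym2.map_map],
      fun e => by simp [Sym2.map_map]⟩
  have h := Measure.infinitePi_map_piCongrLeft
    (μ := fun _ : Sym2 V => bernoulliMeasure true false p) ψ.symm
  have heq : (fun (ω : Sym2 V → Bool) (e : Sym2 V) => ω (e.map φ))
      = ⇑(MeasurableEquiv.piCongrLeft (fun _ : Sym2 V => Bool) ψ.symm) := by
    funext ω e
    simp [MeasurableEquiv.piCongrLeft, Equiv.piCongrLeft, ψ]
  rw [heq]
  exact h

end Indep

end Vale.Agent.P165
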