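import Mathlib

/-!
# Bond percolation on graphs: basic notions for P165

Only the definitions used in the statement of the hand-in.
-/

namespace Vale.Agent.P165

open MeasureTheory ProbabilityTheory

variable {V : Type*}

/-- The law of independent edge variables: every unordered pair is open (`true`) with
probability `p`, independently. Only the values on the edges of the graph are ever used. -/
noncomputable def bondMeasure (V : Type*) (p : unitInterval) : Measure (Sym2 V → Bool) :=
  Measure.infinitePi fun _ : Sym2 V => bernoulliMeasure true false p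

/-- The open subgraph of `G` in the configuration `ω`. -/
def openGraph (G : SimpleGraph V) (ω : Sym2 V → Bool) : SimpleGraph V where
  Adj x y := G.Adj x y ∧ ω s(x, y) = true
  symm := ⟨fun x y h => ⟨h.1.symm, by rw [Sym2.eq_swap]; exact h.2⟩⟩
  loopless := ⟨fun x h => h.1.ne rfl⟩

/-- The open cluster of `x`. -/
def cluster (G : SimpleGraph V) (ω : Sym2 V → Bool) (x : V) : Set V :=
  {y | (openGraph G ω).Reachable x y}

/-- There is an infinite open cluster. -/
def hasInfiniteCluster (G : SimpleGraph V) : Set (Sym2 V → Bool) :=
  {ω | ∃ x, (cluster G ω x).Infinite}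

/-- There is exactly one infinite open cluster. -/
def hasUniqueInfiniteCluster (G : SimpleGraph V) : Set (Sym2 V → Bool) :=
  {ω | ∃ x, (cluster G ω x).Infinite ∧
    ∀ y, (cluster G ω y).Infinite → y ∈ cluster G ω x}

/-- `p_c = inf {p : P_p (N_∞ ≥ 1) > 0}`. -/
noncomputable def pCritical (G : SimpleGraph V) : ℝ :=
  sInf ((fun p : unitInterval => (p : ℝ)) ''
    {p | 0 < bondMeasure V p (hasInfiniteCluster G)})

/-- `p_u = inf {p : P_p (N_∞ = 1) = 1}`. -/
noncomputable def pUniqueness (G : SimpleGraph V) : ℝ :=
  sInf ((fun p : unitInterval => (p : ℝ)) ''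
    {p | bondMeasure V p (hasUniqueInfiniteCluster G) = 1})

open Classical in
/-- The simple random walk of `G` has spectral radius at most `r`: the quadratic form of the
adjacency operator is at most `r` times that of the degrees, on finitely supported functions. -/
def SpectralRadiusLE (G : SimpleGraph V) [G.LocallyFinite] (r : ℝ) : Prop :=
  ∀ (s : Finset V) (f : V → ℝ),
    ∑ x ∈ s, ∑ y ∈ s, (if G.Adj x y then f x * f y else 0) ≤
      r * ∑ x ∈ s, (G.degree x : ℝ) * f x ^ 2

/-- `G` is vertex-transitive. -/
def IsVertexTransitive (G : SimpleGraph V) : Prop :=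
  ∀ x y : V, ∃ f : G ≃g G, f x = y

end Vale.Agent.P165
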