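import Vale.Agent.P165.Defs

/-!
# Counting walks under a spectral radius bound
-/

namespace Vale.Agent.P165

open Finset

variable {V : Type*} (G : SimpleGraph V) [G.LocallyFinite]

open Classical in
/-- The number of walks of length `k` from `a` to `b`. -/
noncomputable def cnt : ℕ → V → V → ℕ
  | 0, a, b => if a = b then 1 else 0
  | k + 1, a, b => ∑ z ∈ G.neighborFinset a, cnt k z b

open Classical in
theorem card_finsetWalkLength_eq_cnt (k : ℕ) (a b : V) :
    (G.finsetWalkLength k a b).card = cnt G k a b := by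
  induction k generalizing a with
  | zero =>
    rcases eq_or_ne a b with rfl | h
    · simp [SimpleGraph.finsetWalkLength, cnt]
    · simp [SimpleGraph.finsetWalkLength, cnt, h]
  | succ k ih =>
    rw [SimpleGraph.finsetWalkLength, card_biUnion]
    · simp only [card_map, ih, cnt]
      refine Eq.symm ?_
      refine Finset.sum_bij (fun z hz => ⟨z, by simpa using hz⟩) ?_ ?_ ?_ ?_
      · intros; simp
      · intro z₁ _ z₂ _ h; simpa using h
      · rintro ⟨z, hz⟩ _; exact ⟨z, by simpa using hz, rfl⟩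
      · intros; rfl
    · intro z₁ _ z₂ _ hne
      simp only [Function.onFun, disjoint_left, mem_map]
      rintro w ⟨p, _, rfl⟩ ⟨q, _, hq⟩
      apply hne
      change SimpleGraph.Walk.cons _ q = SimpleGraph.Walk.cons _ p at hq
      cases z₁ with
      | mk v₁ h₁ =>
        cases z₂ with
        | mk v₂ h₂ =>
          injection hq with e₁
          first
            | exact Subtype.ext e₁.symm
            | simp_all

variable {G}

theorem cnt_succ_le {d : ℕ} (hd : ∀ x, G.degree x = d) (k : ℕ) (a b : V) :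
    cnt G (k + 1) a b ≤ d ^ k := by
  classical
  induction k generalizing a with
  | zero =>
    simp only [cnt, pow_zero]
    rw [Finset.sum_ite_eq']
    split_ifs <;> simp
  | succ k ih =>
    calc cnt G (k + 1 + 1) a b = ∑ z ∈ G.neighborFinset a, cnt G (k + 1) z b := rfl
      _ ≤ ∑ _z ∈ G.neighborFinset a, d ^ k := Finset.sum_le_sum fun z _ => ih z
      _ = d ^ (k + 1) := by
        rw [Finset.sum_const, SimpleGraph.card_neighborFinset_eq_degree, hd]
        simp [pow_succ']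

open Classical in
/-- The adjacency operator maps a function supported on `s` to one supported on `nbhdFinset s`. -/
noncomputable def nbhdFinset (s : Finset V) : Finset V :=
  s.biUnion fun y => G.neighborFinset y

omit [G.LocallyFinite] in
open Classical in
theorem bilinear_le {c : ℝ} (h : ∀ (s : Finset V) (f : V → ℝ),
    ∑ x ∈ s, ∑ y ∈ s, (if G.Adj x y then f x * f y else 0) ≤ c * ∑ x ∈ s, f x ^ 2)
    (s : Finset V) (u v : V → ℝ) :
    2 * ∑ x ∈ s, ∑ y ∈ s, (if G.Adj x y then u x * v y else 0) ≤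
      c * (∑ x ∈ s, u x ^ 2) + c * ∑ x ∈ s, v x ^ 2 := by
  have h1 := h s (fun x => u x + v x)
  have h2 := h s (fun x => |u x - v x|)
  have h3 : ∀ x y, -(if G.Adj x y then (u x - v x) * (u y - v y) else 0) ≤
      (if G.Adj x y then |u x - v x| * |u y - v y| else 0) := by
    intro x y
    split_ifs
    · rw [← abs_mul]; exact neg_le_abs _
    · simp
  have h4 : -(∑ x ∈ s, ∑ y ∈ s, (if G.Adj x y then (u x - v x) * (u y - v y) else 0)) ≤
      ∑ x ∈ s, ∑ y ∈ s, (if G.Adj x y then |u x - v x| * |u y - v y| else 0) := by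
    simp only [← Finset.sum_neg_distrib]
    exact Finset.sum_le_sum fun x _ => Finset.sum_le_sum fun y _ => h3 x y
  simp only [sq_abs] at h2
  have key : ∑ x ∈ s, ∑ y ∈ s, (if G.Adj x y then (u x + v x) * (u y + v y) else 0)
      - ∑ x ∈ s, ∑ y ∈ s, (if G.Adj x y then (u x - v x) * (u y - v y) else 0)
      = 2 * ∑ x ∈ s, ∑ y ∈ s, (if G.Adj x y then u x * v y else 0)
        + 2 * ∑ x ∈ s, ∑ y ∈ s, (if G.Adj x y then v x * u y else 0) := by
    simp only [Finset.mul_sum, ← Finset.sum_sub_distrib, ← Finset.sum_add_distrib]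
    refine Finset.sum_congr rfl fun x _ => Finset.sum_congr rfl fun y _ => ?_
    split_ifs <;> ring
  have hsymm : ∑ x ∈ s, ∑ y ∈ s, (if G.Adj x y then v x * u y else 0)
      = ∑ x ∈ s, ∑ y ∈ s, (if G.Adj x y then u x * v y else 0) := by
    rw [Finset.sum_comm]
    refine Finset.sum_congr rfl fun x _ => Finset.sum_congr rfl fun y _ => ?_
    rw [G.adj_comm y x]
    split_ifs <;> ring
  have hsq : c * ∑ x ∈ s, (u x + v x) ^ 2 + c * ∑ x ∈ s, (u x - v x) ^ 2
      = 2 * (c * (∑ x ∈ s, u x ^ 2) + c * ∑ x ∈ s, v x ^ 2) := by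
    simp only [Finset.mul_sum, ← Finset.sum_add_distrib]
    exact Finset.sum_congr rfl fun x _ => by ring
  linarith

open Classical in
/-- One application of the adjacency operator. -/
theorem sq_adjOp_le {c : ℝ} (hc : 0 < c) (h : ∀ (s : Finset V) (f : V → ℝ),
    ∑ x ∈ s, ∑ y ∈ s, (if G.Adj x y then f x * f y else 0) ≤ c * ∑ x ∈ s, f x ^ 2)
    (S T : Finset V) (f : V → ℝ) (hf : ∀ x, x ∉ S → f x = 0) :
    ∑ x ∈ T, (∑ z ∈ G.neighborFinset x, f z) ^ 2 ≤ c ^ 2 * ∑ x ∈ S, f x ^ 2 := by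
  set g : V → ℝ := fun x => ∑ z ∈ G.neighborFinset x, f z with hg
  set u : V → ℝ := fun x => if x ∈ T then g x / c else 0 with hu
  have hb := bilinear_le h (S ∪ T) u f
  have hinner : ∀ x, ∑ y ∈ S ∪ T, (if G.Adj x y then u x * f y else 0) = u x * g x := by
    intro x
    rw [hg, Finset.mul_sum, ← Finset.sum_filter]
    refine Finset.sum_subset_zero_on_sdiff ?_ ?_ ?_
    · intro y hy; simpa using (Finset.mem_filter.1 hy).2
    · intro y hy
      simp only [mem_sdiff, mem_filter, SimpleGraph.mem_neighborFinset] at hy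
      have : y ∉ S := fun hyS => hy.2 ⟨mem_union_left _ hyS, hy.1⟩
      simp [hf y this]
    · intros; rfl
  simp only [hinner] at hb
  have e1 : ∑ x ∈ S ∪ T, u x * g x = (∑ x ∈ T, g x ^ 2) / c := by
    rw [Finset.sum_div, ← Finset.sum_subset (Finset.subset_union_right (s₁ := S))]
    · exact Finset.sum_congr rfl fun x hx => by simp [hu, hx]; ring
    · intro x _ hx; simp [hu, hx]
  have e2 : ∑ x ∈ S ∪ T, u x ^ 2 = (∑ x ∈ T, g x ^ 2) / c ^ 2 := by
    rw [Finset.sum_div, ← Finset.sum_subset (Finset.subset_union_right (s₁ := S))]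
    · exact Finset.sum_congr rfl fun x hx => by simp [hu, hx, div_pow]
    · intro x _ hx; simp [hu, hx]
  have e3 : ∑ x ∈ S ∪ T, f x ^ 2 = ∑ x ∈ S, f x ^ 2 := by
    rw [← Finset.sum_subset (Finset.subset_union_left (s₂ := T))]
    intro x _ hx; simp [hf x hx]
  rw [e1, e2, e3] at hb
  have hA : (∑ x ∈ T, g x ^ 2) / c ≤ c * ∑ x ∈ S, f x ^ 2 := by
    have : c * ((∑ x ∈ T, g x ^ 2) / c ^ 2) = (∑ x ∈ T, g x ^ 2) / c := by field_simp
    linarith
  rw [div_le_iff₀ hc] at hA
  simpa [hg, pow_two, mul_comm, mul_assoc, mul_left_comm] using hA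

open Classical in
/-- `k`-fold application of the adjacency operator to a finitely supported function. -/
theorem sq_cnt_le {c : ℝ} (hc : 0 < c) (h : ∀ (s : Finset V) (f : V → ℝ),
    ∑ x ∈ s, ∑ y ∈ s, (if G.Adj x y then f x * f y else 0) ≤ c * ∑ x ∈ s, f x ^ 2)
    (F : Finset V) (k : ℕ) (T : Finset V) :
    ∑ x ∈ T, (∑ y ∈ F, (cnt G k x y : ℝ)) ^ 2 ≤ (c ^ k) ^ 2 * F.card := by
  induction k generalizing T with
  | zero =>
    have hF : ∀ x, (∑ y ∈ F, (cnt G 0 x y : ℝ)) = if x ∈ F then 1 else 0 := by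
      intro x; simp [cnt, Finset.sum_ite_eq]
    simp only [hF, ite_pow, one_pow, ne_eq, OfNat.ofNat_ne_zero, not_false_eq_true, zero_pow,
      Finset.sum_boole, pow_zero, one_mul, Nat.cast_le]
    exact Finset.card_le_card (fun x hx => (Finset.mem_filter.1 hx).2)
  | succ k ih =>
    set S := nbhdFinset (G := G) T with hS
    set f : V → ℝ := fun z => if z ∈ S then ∑ y ∈ F, (cnt G k z y : ℝ) else 0 with hf
    have hstep : ∀ x ∈ T, (∑ y ∈ F, (cnt G (k + 1) x y : ℝ)) = ∑ z ∈ G.neighborFinset x, f z := by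
      intro x hx
      simp only [cnt, Nat.cast_sum]
      rw [Finset.sum_comm]
      refine Finset.sum_congr rfl fun z hz => ?_
      have : z ∈ S := by
        simp only [hS, nbhdFinset, mem_biUnion]
        exact ⟨x, hx, hz⟩
      simp [hf, this]
    rw [Finset.sum_congr rfl fun x hx => by rw [hstep x hx]]
    refine (sq_adjOp_le hc h S T f (fun x hx => by simp [hf, hx])).trans ?_
    rw [Finset.sum_congr rfl fun x (hx : x ∈ S) => by
      rw [show f x = ∑ y ∈ F, (cnt G k x y : ℝ) by simp [hf, hx]]]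
    calc c ^ 2 * ∑ x ∈ S, (∑ y ∈ F, (cnt G k x y : ℝ)) ^ 2
        ≤ c ^ 2 * ((c ^ k) ^ 2 * F.card) := by gcongr; exact ih S
      _ = (c ^ (k + 1)) ^ 2 * F.card := by ring

/-- The quadratic-form bound for a regular graph. -/
theorem form_le {d : ℕ} {r : ℝ} (hd : ∀ x, G.degree x = d) (h : SpectralRadiusLE G r)
    {r' : ℝ} (hr : r ≤ r') :
    ∀ (s : Finset V) (f : V → ℝ),
      (∑ x ∈ s, ∑ y ∈ s, @ite _ (G.Adj x y) (Classical.propDecidable _) (f x * f y) 0) ≤
        r' * d * ∑ x ∈ s, f x ^ 2 := by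
  intro s f
  refine (h s f).trans ?_
  simp only [hd, ← Finset.mul_sum]
  have : 0 ≤ (d : ℝ) * ∑ x ∈ s, f x ^ 2 := by positivity
  nlinarith

open Classical in
theorem cnt_le_pow {c : ℝ} (hc : 0 < c) (h : ∀ (s : Finset V) (f : V → ℝ),
    ∑ x ∈ s, ∑ y ∈ s, (if G.Adj x y then f x * f y else 0) ≤ c * ∑ x ∈ s, f x ^ 2)
    (k : ℕ) (a b : V) : (cnt G k a b : ℝ) ≤ c ^ k := by
  have := sq_cnt_le hc h {b} k {a}
  simp only [sum_singleton, card_singleton, Nat.cast_one, mul_one] at this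
  exact (abs_le_of_sq_le_sq' this (pow_nonneg hc.le k)).2

open Classical in
theorem sum_cnt_le_pow {c : ℝ} (hc : 0 < c) (h : ∀ (s : Finset V) (f : V → ℝ),
    ∑ x ∈ s, ∑ y ∈ s, (if G.Adj x y then f x * f y else 0) ≤ c * ∑ x ∈ s, f x ^ 2)
    (k : ℕ) (F : Finset V) : (∑ x ∈ F, ∑ y ∈ F, (cnt G k x y : ℝ)) ≤ c ^ k * F.card := by
  have h2 := sq_cnt_le hc h F k F
  have hck : 0 < c ^ k := pow_pos hc k
  have h1 : ∑ x ∈ F, 2 * (c ^ k * ∑ y ∈ F, (cnt G k x y : ℝ)) ≤
      ∑ x ∈ F, ((c ^ k) ^ 2 + (∑ y ∈ F, (cnt G k x y : ℝ)) ^ 2) :=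
    Finset.sum_le_sum fun x _ => by nlinarith [sq_nonneg (c ^ k - ∑ y ∈ F, (cnt G k x y : ℝ))]
  rw [Finset.sum_add_distrib, Finset.sum_const, nsmul_eq_mul, ← Finset.mul_sum,
    ← Finset.mul_sum] at h1
  nlinarith

end Vale.Agent.P165
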