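import Vale.Agent.P165.Basic
import Vale.Agent.P165.Kernel

/-!
# Capped cluster sizes and the union bound over connecting paths
-/

namespace Vale.Agent.P165

open MeasureTheory ProbabilityTheory
open scoped ENNReal

variable {V : Type*}

/-- The cardinality capped at `N`. -/
noncomputable def capSize (N : ℕ) (S : Set V) : ℕ := (min S.encard (N : ℕ∞)).toNat

theorem capSize_ne_top (N : ℕ) (S : Set V) : min S.encard (N : ℕ∞) ≠ ⊤ :=
  ne_top_of_le_ne_top (ENat.coe_ne_top N) (min_le_right _ _)

theorem coe_capSize (N : ℕ) (S : Set V) : (capSize N S : ℕ∞) = min S.encard (N : ℕ∞) :=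
  ENat.coe_toNat (capSize_ne_top N S)

theorem capSize_le (N : ℕ) (S : Set V) : capSize N S ≤ N := by
  have : (capSize N S : ℕ∞) ≤ N := by rw [coe_capSize]; exact min_le_right _ _
  exact_mod_cast this

theorem capSize_mono {N : ℕ} {S T : Set V} (h : S ⊆ T) : capSize N S ≤ capSize N T := by
  have : (capSize N S : ℕ∞) ≤ capSize N T := by
    rw [coe_capSize, coe_capSize]; exact min_le_min_right _ (Set.encard_le_encard h)
  exact_mod_cast this

theorem capSize_union_le (N : ℕ) (S T : Set V) :
    capSize N (S ∪ T) ≤ capSize N S + capSize N T := by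
  have : (capSize N (S ∪ T) : ℕ∞) ≤ capSize N S + capSize N T := by
    rw [coe_capSize, coe_capSize, coe_capSize]
    rcases le_total S.encard (N : ℕ∞) with hS | hS
    · rcases le_total T.encard (N : ℕ∞) with hT | hT
      · rw [min_eq_left hS, min_eq_left hT]
        exact (min_le_left _ _).trans (Set.encard_union_le S T)
      · rw [min_eq_right hT]
        exact (min_le_right _ _).trans le_add_self
    · rw [min_eq_right hS]
      exact (min_le_right _ _).trans le_self_add
  exact_mod_cast this

theorem capSize_union_of_disjoint {N : ℕ} {S T : Set V} (h : Disjoint S T) :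
    capSize N (S ∪ T) = min (capSize N S + capSize N T) N := by
  have : (capSize N (S ∪ T) : ℕ∞) = min ((capSize N S : ℕ∞) + capSize N T) N := by
    rw [coe_capSize, coe_capSize, coe_capSize, Set.encard_union_eq h]
    rcases le_total S.encard (N : ℕ∞) with hS | hS
    · rcases le_total T.encard (N : ℕ∞) with hT | hT
      · rw [min_eq_left hS, min_eq_left hT]
      · rw [min_eq_right hT, min_eq_right (hT.trans le_add_self), min_eq_right le_add_self]
    · rw [min_eq_right hS, min_eq_right (hS.trans le_self_add), min_eq_right le_self_add]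
  have h2 : ((capSize N (S ∪ T) : ℕ) : ℕ∞) = ((min (capSize N S + capSize N T) N : ℕ) : ℕ∞) := by
    rw [this]; rfl
  exact_mod_cast h2

theorem capSize_biUnion_le {ι : Type*} (N : ℕ) (s : Finset ι) (S : ι → Set V) :
    capSize N (⋃ i ∈ s, S i) ≤ ∑ i ∈ s, capSize N (S i) := by
  classical
  induction s using Finset.induction_on with
  | empty => simp [capSize]
  | @insert a s ha ih =>
    rw [Finset.set_biUnion_insert, Finset.sum_insert ha]
    exact (capSize_union_le _ _ _).trans (by omega)

theorem one_le_capSize {N : ℕ} (hN : 1 ≤ N) {S : Set V} {x : V} (hx : x ∈ S) :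
    1 ≤ capSize N S := by
  have : (1 : ℕ∞) ≤ capSize N S := by
    rw [coe_capSize]
    exact le_min (Set.one_le_encard_iff_nonempty.2 ⟨x, hx⟩) (by exact_mod_cast hN)
  exact_mod_cast this

theorem capSize_image_equiv (N : ℕ) (e : V ≃ V) (S : Set V) :
    capSize N (e ⁻¹' S) = capSize N S := by
  rw [capSize, capSize, Set.encard_preimage_of_bijective e.bijective]

theorem le_capSize_iff {N j : ℕ} {S : Set V} :
    j ≤ capSize N S ↔ (j : ℕ∞) ≤ S.encard ∧ j ≤ N := by
  rw [← ENat.coe_le_coe, coe_capSize, le_min_iff, ENat.coe_le_coe]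

theorem capSize_le_add {N K : ℕ} (S : Set V) (h : S.encard < K) : capSize N S ≤ K := by
  have : (capSize N S : ℕ∞) ≤ K := by
    rw [coe_capSize]; exact (min_le_left _ _).trans h.le
  exact_mod_cast this

section Measurable

variable [Countable V]

theorem measurableSet_le_encard (G : SimpleGraph V) (x : V) (j : ℕ) :
    MeasurableSet {ω : Sym2 V → Bool | (j : ℕ∞) ≤ (cluster G ω x).encard} := by
  have : {ω : Sym2 V → Bool | (j : ℕ∞) ≤ (cluster G ω x).encard}
      = ⋃ s ∈ {s : Finset V | s.card = j}, ⋂ z ∈ s, {ω | z ∈ cluster G ω x} := by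
    ext ω
    simp only [Set.mem_ofPred_eq, Set.mem_iUnion, Set.mem_iInter, exists_prop]
    constructor
    · intro h
      obtain ⟨T, hT, hTc⟩ := Set.exists_subset_encard_eq h
      have hfin : T.Finite := Set.finite_of_encard_eq_coe hTc
      refine ⟨hfin.toFinset, ?_, fun z hz => hT (hfin.mem_toFinset.1 hz)⟩
      rw [hfin.encard_eq_coe_toFinset_card] at hTc
      exact_mod_cast hTc
    · rintro ⟨s, hs, h⟩
      calc (j : ℕ∞) = (s : Set V).encard := by rw [Set.encard_coe_eq_coe_finsetCard, hs]
        _ ≤ _ := Set.encard_le_encard fun z hz => h z hz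
  rw [this]
  exact MeasurableSet.biUnion (Set.to_countable _) fun s _ =>
    Finset.measurableSet_biInter s fun z _ => measurableSet_mem_cluster G x z

theorem measurable_capSize (N : ℕ) (G : SimpleGraph V) (x : V) :
    Measurable fun ω : Sym2 V → Bool => (capSize N (cluster G ω x) : ℝ≥0∞) := by
  have h : Measurable fun ω : Sym2 V → Bool => capSize N (cluster G ω x) := by
    refine measurable_of_Ici fun j => ?_
    by_cases hj : j ≤ N
    · have : (fun ω : Sym2 V → Bool => capSize N (cluster G ω x)) ⁻¹' Set.Ici j
          = {ω | (j : ℕ∞) ≤ (cluster G ω x).encard} := by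
        ext ω; simp [le_capSize_iff, hj]
      rw [this]; exact measurableSet_le_encard G x j
    · have : (fun ω : Sym2 V → Bool => capSize N (cluster G ω x)) ⁻¹' Set.Ici j = ∅ := by
        ext ω; simp [le_capSize_iff, hj]
      rw [this]; exact MeasurableSet.empty
  exact measurable_from_nat.comp h

end Measurable

/-- Clusters are covered by the clusters of the points of any set `S` containing the root, taken
without the pairs inside `S`. -/
theorem exists_reach_avoid {H : SimpleGraph V} {S : Set V} {a z : V} (ha : a ∈ S)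
    (p : H.Walk z a) :
    ∃ u ∈ S, (H.deleteEdges {e | ∀ v ∈ e, v ∈ S}).Reachable z u := by
  induction p with
  | nil => exact ⟨_, ha, SimpleGraph.Reachable.refl _⟩
  | @cons u v w h q ih =>
    by_cases hu : u ∈ S
    · exact ⟨u, hu, SimpleGraph.Reachable.refl _⟩
    · obtain ⟨u', hu', hr⟩ := ih ha
      refine ⟨u', hu', SimpleGraph.Reachable.trans (SimpleGraph.Adj.reachable ?_) hr⟩
      rw [SimpleGraph.deleteEdges_adj]
      exact ⟨h, fun hmem => hu (hmem u (Sym2.mem_mk_left _ _))⟩

variable (G : SimpleGraph V) [G.LocallyFinite]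

open Classical in
/-- Self-avoiding walks of length `k`. -/
noncomputable def pathsOf (k : ℕ) (a b : V) : Finset (G.Walk a b) :=
  (G.finsetWalkLength k a b).filter fun w => w.IsPath

open Classical in
theorem card_pathsOf_le (k : ℕ) (a b : V) : (pathsOf G k a b).card ≤ cnt G k a b :=
  (Finset.card_filter_le _ _).trans (card_finsetWalkLength_eq_cnt G k a b).le

open Classical in
/-- The event that all pairs of a walk are open, as an indicator. -/
noncomputable def openInd {a b : V} (w : G.Walk a b) (ω : Sym2 V → Bool) : ℝ≥0∞ :=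
  if ∀ e ∈ w.edges, ω e = true then 1 else 0

/-- The kernel `∑ (k+1) p^k cnt_k`. -/
noncomputable def pathSum (p : ℝ) (a b : V) : ℝ≥0∞ :=
  ∑' k : ℕ, ((k : ℝ≥0∞) + 1) * (ENNReal.ofReal p) ^ k * (cnt G k a b : ℝ≥0∞)

variable {G}

open Classical in
theorem exists_path_of_mem_cluster {ω : Sym2 V → Bool} {a b : V} (h : b ∈ cluster G ω a) :
    ∃ (k : ℕ) (w : G.Walk a b), w ∈ pathsOf G k a b ∧ openInd G w ω = 1 := by
  obtain ⟨q, hq⟩ := SimpleGraph.Reachable.exists_isPath h
  have hle : openGraph G ω ≤ G := fun _ _ hxy => hxy.1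
  refine ⟨q.length, q.mapLe hle, ?_, ?_⟩
  · simp only [pathsOf, Finset.mem_filter, SimpleGraph.mem_finsetWalkLength_iff]
    exact ⟨by simp, hq.mapLe hle⟩
  · have hopen : ∀ e ∈ q.edges, ω e = true := by
      intro e he
      have := q.edges_subset_edgeSet he
      induction e using Sym2.ind with
      | _ x y => exact this.2
    simp only [openInd, SimpleGraph.Walk.edges_mapLe_eq_edges]
    exact if_pos hopen

open Classical in
theorem mem_cluster_indicator_le (N : ℕ) (ω : Sym2 V → Bool) (a b : V) :
    (if b ∈ cluster G ω a then (capSize N (cluster G ω a) : ℝ≥0∞) else 0) ≤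
      ∑' k : ℕ, ∑ w ∈ pathsOf G k a b, openInd G w ω *
        ∑ u ∈ w.support.toFinset,
          (capSize N (cluster (G.deleteEdges {e | e ∈ w.edges}) ω u) : ℝ≥0∞) := by
  split_ifs with h
  · obtain ⟨k, w, hw, hopen⟩ := exists_path_of_mem_cluster h
    refine le_trans ?_ (ENNReal.le_tsum k)
    refine le_trans ?_ (Finset.single_le_sum
      (f := fun w => openInd G w ω * ∑ u ∈ w.support.toFinset,
          (capSize N (cluster (G.deleteEdges {e | e ∈ w.edges}) ω u) : ℝ≥0∞))
      (fun i _ => zero_le) hw)
    rw [hopen, one_mul]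
    have hsub : cluster G ω a ⊆
        ⋃ u ∈ w.support.toFinset, cluster (G.deleteEdges {e | e ∈ w.edges}) ω u := by
      intro z hz
      obtain ⟨q⟩ := SimpleGraph.Reachable.symm hz
      obtain ⟨u, hu, hr⟩ := exists_reach_avoid (S := {v | v ∈ w.support}) w.start_mem_support q
      refine Set.mem_iUnion₂.2 ⟨u, by simpa using hu, ?_⟩
      refine (SimpleGraph.Reachable.mono ?_ hr).symm
      intro x y hxy
      rw [SimpleGraph.deleteEdges_adj] at hxy
      refine ⟨?_, hxy.1.2⟩
      rw [SimpleGraph.deleteEdges_adj]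
      refine ⟨hxy.1.1, fun hmem => hxy.2 ?_⟩
      intro v hv
      rcases Sym2.mem_iff.1 hv with rfl | rfl
      · exact w.fst_mem_support_of_mem_edges hmem
      · exact w.snd_mem_support_of_mem_edges hmem
    calc (capSize N (cluster G ω a) : ℝ≥0∞)
        ≤ ((∑ u ∈ w.support.toFinset,
            capSize N (cluster (G.deleteEdges {e | e ∈ w.edges}) ω u) : ℕ) : ℝ≥0∞) := by
          exact_mod_cast (capSize_mono hsub).trans (capSize_biUnion_le _ _ _)
      _ = _ := by push_cast; rfl
  · exact zero_le

omit [G.LocallyFinite] in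
open Classical in
theorem measurable_openInd {a b : V} (w : G.Walk a b) : Measurable (openInd G w) := by
  refine Measurable.ite ?_ measurable_const measurable_const
  have := measurableSet_open (V := V) w.edges.toFinset
  simpa using this

variable [Countable V] {p : unitInterval}

omit [G.LocallyFinite] [Countable V] in
open Classical in
theorem lintegral_openInd {a b : V} (w : G.Walk a b) (hw : w.IsPath) :
    ∫⁻ ω, openInd G w ω ∂bondMeasure V p = (ENNReal.ofReal (p : ℝ)) ^ w.length := by
  have he : openInd G w = Set.indicator {ω | ∀ e ∈ w.edges.toFinset, ω e = true} 1 := by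
    funext ω
    by_cases h : ∀ e ∈ w.edges, ω e = true
    · simp [openInd, h, Set.indicator]
    · simp [openInd, h, Set.indicator]
  rw [he, lintegral_indicator_one (measurableSet_open _), bondMeasure_open,
    List.toFinset_card_of_nodup hw.edges_nodup, SimpleGraph.Walk.length_edges]

open Classical in
/-- The key union bound. -/
theorem lintegral_mem_cluster_le (N : ℕ) (M : ℝ≥0∞)
    (hM : ∀ u, ∫⁻ ω, (capSize N (cluster G ω u) : ℝ≥0∞) ∂bondMeasure V p ≤ M) (a b : V) :
    ∫⁻ ω, (if b ∈ cluster G ω a then (capSize N (cluster G ω a) : ℝ≥0∞) else 0)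
        ∂bondMeasure V p ≤ pathSum G p a b * M := by
  refine (lintegral_mono fun ω => mem_cluster_indicator_le N ω a b).trans ?_
  have hterm : ∀ k, ∀ w ∈ pathsOf G k a b, Measurable fun ω => openInd G w ω *
      ∑ u ∈ w.support.toFinset,
        (capSize N (cluster (G.deleteEdges {e | e ∈ w.edges}) ω u) : ℝ≥0∞) := fun k w _ =>
    (measurable_openInd w).mul (Finset.measurable_sum _ fun u _ => measurable_capSize N _ u)
  rw [lintegral_tsum fun k => (Finset.measurable_sum _ (hterm k)).aemeasurable, pathSum,
    ← ENNReal.tsum_mul_right]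
  refine ENNReal.tsum_le_tsum fun k => ?_
  rw [lintegral_finsetSum _ (hterm k)]
  calc ∑ w ∈ pathsOf G k a b, ∫⁻ ω, openInd G w ω * ∑ u ∈ w.support.toFinset,
          (capSize N (cluster (G.deleteEdges {e | e ∈ w.edges}) ω u) : ℝ≥0∞) ∂bondMeasure V p
      ≤ ∑ _w ∈ pathsOf G k a b, (ENNReal.ofReal (p : ℝ)) ^ k * (((k : ℝ≥0∞) + 1) * M) := by
        refine Finset.sum_le_sum fun w hw => ?_
        simp only [pathsOf, Finset.mem_filter, SimpleGraph.mem_finsetWalkLength_iff] at hw
        rw [lintegral_mul_of_dep {e | e ∈ w.edges} (openInd G w) _ (measurable_openInd w)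
          (Finset.measurable_sum _ fun u _ => measurable_capSize N _ u)]
        · rw [lintegral_openInd w hw.2, hw.1,
            lintegral_finsetSum _ fun u _ => measurable_capSize N _ u]
          gcongr
          calc ∑ u ∈ w.support.toFinset,
                ∫⁻ ω, (capSize N (cluster (G.deleteEdges {e | e ∈ w.edges}) ω u) : ℝ≥0∞)
                  ∂bondMeasure V p
              ≤ ∑ _u ∈ w.support.toFinset, M := Finset.sum_le_sum fun u _ =>
                (lintegral_mono fun ω => by
                  exact Nat.cast_le.2 (capSize_mono (cluster_mono (G.deleteEdges_le _) ω u))).trans (hM u)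
            _ ≤ ((k : ℝ≥0∞) + 1) * M := by
                rw [Finset.sum_const, nsmul_eq_mul]
                gcongr
                have h1 : w.support.toFinset.card ≤ k + 1 :=
                  (List.toFinset_card_le _).trans (by rw [SimpleGraph.Walk.length_support, hw.1])
                exact_mod_cast h1
        · intro ω ω' h
          have : (∀ e ∈ w.edges, ω e = true) ↔ (∀ e ∈ w.edges, ω' e = true) :=
            forall₂_congr fun e he => by rw [h e he]
          simp only [openInd, this]
        · intro ω ω' h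
          refine Finset.sum_congr rfl fun u _ => ?_
          rw [cluster_congr (fun e he => h e ?_)]
          rw [SimpleGraph.edgeSet_deleteEdges] at he
          exact he.2
    _ ≤ ((k : ℝ≥0∞) + 1) * (ENNReal.ofReal (p : ℝ)) ^ k * (cnt G k a b : ℝ≥0∞) * M := by
        rw [Finset.sum_const, nsmul_eq_mul]
        calc ((pathsOf G k a b).card : ℝ≥0∞) * ((ENNReal.ofReal (p : ℝ)) ^ k * (((k : ℝ≥0∞) + 1) * M))
            ≤ (cnt G k a b : ℝ≥0∞) * ((ENNReal.ofReal (p : ℝ)) ^ k * (((k : ℝ≥0∞) + 1) * M)) := by
              gcongr; exact_mod_cast card_pathsOf_le G k a b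
          _ = _ := by ring

end Vale.Agent.P165
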