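import Vale.Agent.P165.Step

/-!
# The two threshold bounds and the high degree theorem
-/

namespace Vale.Agent.P165

open MeasureTheory ProbabilityTheory Filter Topology
open scoped ENNReal NNReal

variable {V : Type*}

section Transitive

variable [Countable V] {G : SimpleGraph V} {p : unitInterval}

theorem lintegral_capSize_eq (hG : IsVertexTransitive G) (N : ℕ) (a b : V) :
    ∫⁻ ω, (capSize N (cluster G ω a) : ℝ≥0∞) ∂bondMeasure V p =
      ∫⁻ ω, (capSize N (cluster G ω b) : ℝ≥0∞) ∂bondMeasure V p := by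
  obtain ⟨φ, rfl⟩ := hG a b
  conv_lhs => rw [← (measurePreserving_map φ).lintegral_comp (measurable_capSize N G a)]
  refine lintegral_congr fun ω => ?_
  rw [cluster_map φ ω a]
  exact congrArg Nat.cast (capSize_image_equiv N φ.toEquiv _)

theorem measure_infinite_eq (hG : IsVertexTransitive G) (a b : V) :
    bondMeasure V p {ω | (cluster G ω a).Infinite} =
      bondMeasure V p {ω | (cluster G ω b).Infinite} := by
  obtain ⟨φ, rfl⟩ := hG a b
  conv_lhs => rw [← (measurePreserving_map φ).measure_preimage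
    (measurableSet_infinite_cluster G a).nullMeasurableSet]
  congr 1
  ext ω
  simp only [Set.mem_preimage, Set.mem_ofPred_eq, cluster_map φ ω a, ← Set.encard_eq_top_iff]
  rw [Set.encard_preimage_of_bijective φ.bijective]

end Transitive

/-- The degree from which the kernel is small. -/
theorem exists_degree_pathSum_le {μ ρ δ : ℝ} (hμ : 0 ≤ μ) (hρ : 0 < ρ) (hμρ : μ * ρ < 1)
    (hδ : 0 < δ) :
    ∃ D : ℕ, 0 < D ∧ ∀ {V : Type*} (G : SimpleGraph V) [G.LocallyFinite] (d : ℕ), D ≤ d →
      (∀ x, G.degree x = d) → (∀ (k : ℕ) (a b : V), (cnt G k a b : ℝ) ≤ (ρ * d) ^ k) →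
      ∀ a b, a ≠ b → pathSum G (μ / d) a b ≤ ENNReal.ofReal δ := by
  set θ := μ * ρ with hθ
  have hθ0 : 0 ≤ θ := mul_nonneg hμ hρ.le
  set f : ℕ → ℝ≥0∞ := fun k => ENNReal.ofReal ((k + 1) * θ ^ k) with hf
  have hsum : Summable fun k : ℕ => ((k : ℝ) + 1) * θ ^ k := by
    have h1 := summable_pow_mul_geometric_of_norm_lt_one (R := ℝ) 1
      (r := θ) (by rwa [Real.norm_of_nonneg hθ0])
    have h2 := summable_geometric_of_lt_one hθ0 hμρ
    simpa [add_mul, pow_one] using h1.add h2
  have hfin : ∑' k, f k ≠ ⊤ := by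
    rw [hf, ← ENNReal.ofReal_tsum_of_nonneg (fun k => by positivity) hsum]
    exact ENNReal.ofReal_ne_top
  obtain ⟨L, hL⟩ := ((ENNReal.tendsto_sum_nat_add f hfin).eventually_le_const
    (show (0 : ℝ≥0∞) < ENNReal.ofReal (δ / 2) by simpa using hδ)).exists
  set A : ℝ := ∑ k ∈ Finset.range L, ((k : ℝ) + 1) * μ ^ k with hA
  refine ⟨⌈2 * A / δ⌉₊ + 1, Nat.succ_pos _, ?_⟩
  intro V G _ d hd hdeg hcnt a b hab
  have hd0 : (0 : ℝ) < d := by
    have : 0 < d := lt_of_lt_of_le (Nat.succ_pos _) hd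
    exact_mod_cast this
  set g : ℕ → ℝ≥0∞ := fun k =>
    ((k : ℝ≥0∞) + 1) * ENNReal.ofReal (μ / d) ^ k * (cnt G k a b : ℝ≥0∞) with hg
  have hgk : ∀ k, g k = ENNReal.ofReal ((k + 1) * ((μ / d) ^ k * cnt G k a b)) := by
    intro k
    simp only [hg]
    rw [ENNReal.ofReal_mul (by positivity), ENNReal.ofReal_mul (by positivity),
      ENNReal.ofReal_pow (by positivity), ENNReal.ofReal_natCast,
      ENNReal.ofReal_add (by positivity) zero_le_one, ENNReal.ofReal_natCast, ENNReal.ofReal_one,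
      mul_assoc]
  have htail : ∀ k, g k ≤ f k := by
    intro k
    rw [hgk]
    refine ENNReal.ofReal_le_ofReal (mul_le_mul_of_nonneg_left ?_ (by positivity))
    calc (μ / d) ^ k * cnt G k a b ≤ (μ / d) ^ k * (ρ * d) ^ k := by gcongr; exact hcnt k a b
      _ = θ ^ k := by rw [← mul_pow, hθ]; congr 1; field_simp
  have hhead : ∀ k, g k ≤ ENNReal.ofReal ((k + 1) * μ ^ k / d) := by
    intro k
    rw [hgk]
    refine ENNReal.ofReal_le_ofReal ?_
    rw [mul_div_assoc]
    refine mul_le_mul_of_nonneg_left ?_ (by positivity)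
    rcases k with _ | k
    · simp [cnt, hab]
    · calc (μ / d) ^ (k + 1) * cnt G (k + 1) a b ≤ (μ / d) ^ (k + 1) * (d : ℝ) ^ k := by
            gcongr; exact_mod_cast cnt_succ_le hdeg k a b
        _ = μ ^ (k + 1) / d := by rw [div_pow, pow_succ (d : ℝ)]; field_simp
  have hsplit : ∑' k, g k = ∑ k ∈ Finset.range L, g k + ∑' k, g (k + L) :=
    (Summable.sum_add_tsum_nat_add' ENNReal.summable).symm
  show ∑' k, g k ≤ _
  rw [hsplit, show δ = δ / 2 + δ / 2 by ring, ENNReal.ofReal_add (by linarith) (by linarith)]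
  refine add_le_add ?_ ((ENNReal.tsum_le_tsum fun k => htail (k + L)).trans hL)
  refine (Finset.sum_le_sum fun k _ => hhead k).trans ?_
  rw [← ENNReal.ofReal_sum_of_nonneg fun k _ => by positivity]
  refine ENNReal.ofReal_le_ofReal ?_
  rw [← Finset.sum_div, ← hA, div_le_iff₀ hd0]
  have h1 : (⌈2 * A / δ⌉₊ : ℝ) + 1 ≤ d := by exact_mod_cast hd
  have h2 : 2 * A / δ ≤ (d : ℝ) := le_trans (Nat.le_ceil _) (by linarith)
  rw [div_le_iff₀ hδ] at h2
  linarith

section Bounds

variable [Countable V] {G : SimpleGraph V} [G.LocallyFinite]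

/-- At `p = μ / d` the clusters are macroscopic. -/
theorem measure_infinite_pos (hG : IsVertexTransitive G) {d : ℕ} (hd0 : 0 < d)
    (hd : ∀ x, G.degree x = d) {μ δ : ℝ} (hμ : 0 ≤ μ) (hδ : 0 ≤ δ)
    (hc : 0 < μ * (1 - δ) - 1 - μ ^ 2 * δ) {p : unitInterval} (hp : (p : ℝ) = μ / d)
    (hS : ∀ a b, a ≠ b → pathSum G p a b ≤ ENNReal.ofReal δ) (o : V) :
    0 < bondMeasure V p {ω | (cluster G ω o).Infinite} := by
  set c : ℝ := (μ * (1 - δ) - 1 - μ ^ 2 * δ) / μ ^ 2 with hc'
  have hμne : μ ≠ 0 := by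
    intro h0
    rw [h0] at hc
    norm_num at hc
  have hμ0 : 0 < μ ^ 2 := by positivity
  have hc0 : 0 < c := div_pos hc hμ0
  have key : ∀ N : ℕ, 1 ≤ N → ENNReal.ofReal (c * N) ≤
      ∫⁻ ω, (capSize N (cluster G ω o) : ℝ≥0∞) ∂bondMeasure V p := by
    intro N hN
    set M := ∫⁻ ω, (capSize N (cluster G ω o) : ℝ≥0∞) ∂bondMeasure V p with hMdef
    have hM : ∀ u, ∫⁻ ω, (capSize N (cluster G ω u) : ℝ≥0∞) ∂bondMeasure V p = M := fun u =>
      lintegral_capSize_eq hG N u o
    have hMtop : M ≠ ⊤ := by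
      refine ne_top_of_le_ne_top (ENNReal.natCast_ne_top N) ?_
      calc M ≤ ∫⁻ _ω, (N : ℝ≥0∞) ∂bondMeasure V p :=
            lintegral_mono fun ω => Nat.cast_le.2 (capSize_le _ _)
        _ = (N : ℝ≥0∞) := by simp
    have hM1 : (1 : ℝ≥0∞) ≤ M := by
      calc (1 : ℝ≥0∞) = ∫⁻ _ω, (1 : ℝ≥0∞) ∂bondMeasure V p := by simp
        _ ≤ M := lintegral_mono fun ω =>
          (Nat.one_le_cast (α := ℝ≥0∞)).2 (one_le_capSize hN (mem_cluster_self G ω o))
    have hstep := step_bound N M (ENNReal.ofReal δ) o (hd o) hM hS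
    obtain ⟨r, hr0, hr⟩ : ∃ r : ℝ, 0 ≤ r ∧ M = ENNReal.ofReal r :=
      ⟨M.toReal, ENNReal.toReal_nonneg, (ENNReal.ofReal_toReal hMtop).symm⟩
    have hr1 : 1 ≤ r := by
      rw [hr, ← ENNReal.ofReal_one, ENNReal.ofReal_le_ofReal_iff hr0] at hM1
      exact hM1
    rw [hr] at hstep ⊢
    have hp0 : (0 : ℝ) ≤ p := p.2.1
    have hN0 : (0 : ℝ) ≤ N := Nat.cast_nonneg N
    have hd0' : (0 : ℝ) ≤ d := Nat.cast_nonneg d
    simp only [← ENNReal.ofReal_natCast] at hstep
    simp only [← ENNReal.ofReal_pow hd0', ← ENNReal.ofReal_pow hp0] at hstep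
    simp (discharger := positivity) only [← ENNReal.ofReal_mul, ← ENNReal.ofReal_add] at hstep
    rw [ENNReal.ofReal_le_ofReal_iff (by positivity)] at hstep
    refine ENNReal.ofReal_le_ofReal ?_
    have hpd : (p : ℝ) * d = μ := by rw [hp]; field_simp
    have e : (N : ℝ) * μ * r ≤ N * r + μ ^ 2 * (r * r + N * (δ * r)) + N * μ * δ * r := by
      rw [← hpd]
      calc _ = (N : ℝ) * (p * (d * r)) := by ring
        _ ≤ _ := hstep
        _ = _ := by ring
    have e2 : (N : ℝ) * (μ * (1 - δ) - 1 - μ ^ 2 * δ) ≤ μ ^ 2 * r :=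
      le_of_mul_le_mul_right (by nlinarith) (by linarith : (0 : ℝ) < r)
    rw [hc', div_mul_eq_mul_div, div_le_iff₀ hμ0]
    linarith
  have tail : ∀ K : ℕ,
      ENNReal.ofReal c ≤ bondMeasure V p {ω | (K : ℕ∞) ≤ (cluster G ω o).encard} := by
    intro K
    set P := bondMeasure V p {ω | (K : ℕ∞) ≤ (cluster G ω o).encard} with hP
    have hPtop : P ≠ ⊤ := measure_ne_top _ _
    rw [← ENNReal.ofReal_toReal hPtop]
    refine ENNReal.ofReal_le_ofReal (le_of_forall_pos_le_add fun η hη => ?_)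
    obtain ⟨N, hN⟩ := exists_nat_ge ((K : ℝ) / η + 1)
    have hKη : 0 ≤ (K : ℝ) / η := by positivity
    have hN1 : 1 ≤ N := by
      have : (1 : ℝ) ≤ N := by linarith
      exact_mod_cast this
    have hup : ∫⁻ ω, (capSize N (cluster G ω o) : ℝ≥0∞) ∂bondMeasure V p ≤
        (K : ℝ≥0∞) + (N : ℝ≥0∞) * P := by
      calc ∫⁻ ω, (capSize N (cluster G ω o) : ℝ≥0∞) ∂bondMeasure V p
          ≤ ∫⁻ ω, ((K : ℝ≥0∞) + {ω | (K : ℕ∞) ≤ (cluster G ω o).encard}.indicator
              (fun _ => (N : ℝ≥0∞)) ω) ∂bondMeasure V p := by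
            refine lintegral_mono fun ω => ?_
            by_cases h : (K : ℕ∞) ≤ (cluster G ω o).encard
            · rw [Set.indicator_of_mem (show ω ∈ {ω | (K : ℕ∞) ≤ (cluster G ω o).encard} from h)]
              exact le_add_left (Nat.cast_le.2 (capSize_le _ _))
            · rw [Set.indicator_of_notMem
                (show ω ∉ {ω | (K : ℕ∞) ≤ (cluster G ω o).encard} from h), add_zero]
              exact Nat.cast_le.2 (capSize_le_add _ (not_le.1 h))
        _ = (K : ℝ≥0∞) + (N : ℝ≥0∞) * P := by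
            rw [lintegral_add_left measurable_const,
              lintegral_indicator_const (measurableSet_le_encard G o K)]
            simp [hP]
    have h := (key N hN1).trans hup
    rw [← ENNReal.ofReal_toReal hPtop, ← ENNReal.ofReal_natCast K, ← ENNReal.ofReal_natCast N,
      ← ENNReal.ofReal_mul (by positivity), ← ENNReal.ofReal_add (by positivity) (by positivity),
      ENNReal.ofReal_le_ofReal_iff (by positivity)] at h
    have hN' : (K : ℝ) + η ≤ η * N := by
      calc (K : ℝ) + η = η * ((K : ℝ) / η + 1) := by field_simp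
        _ ≤ η * N := mul_le_mul_of_nonneg_left hN hη.le
    have hNpos : (0 : ℝ) < N := by exact_mod_cast hN1
    nlinarith
  have heq : {ω : Sym2 V → Bool | (cluster G ω o).Infinite}
      = ⋂ K : ℕ, {ω | (K : ℕ∞) ≤ (cluster G ω o).encard} := by
    ext ω
    simp only [Set.mem_ofPred_eq, Set.mem_iInter]
    refine ⟨fun h K => by simp [h.encard_eq], fun h hfin => ?_⟩
    have h1 := h (hfin.toFinset.card + 1)
    rw [hfin.encard_eq_coe_toFinset_card, Nat.cast_le] at h1
    omega
  have hanti : Antitone fun K : ℕ =>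
      {ω : Sym2 V → Bool | (K : ℕ∞) ≤ (cluster G ω o).encard} := fun a b hab ω hω =>
    le_trans (show (a : ℕ∞) ≤ b by exact_mod_cast hab) hω
  rw [heq, hanti.measure_iInter
    (fun K => (measurableSet_le_encard G o K).nullMeasurableSet) ⟨0, measure_ne_top _ _⟩]
  exact lt_of_lt_of_le (ENNReal.ofReal_pos.2 hc0) (le_iInf tail)

/-- The two point function is bounded by the walk kernel. -/
theorem measure_mem_cluster_le (p : unitInterval) (a b : V) :
    bondMeasure V p {ω | b ∈ cluster G ω a} ≤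
      ∑' k : ℕ, ENNReal.ofReal (p : ℝ) ^ k * (cnt G k a b : ℝ≥0∞) := by
  classical
  calc bondMeasure V p {ω | b ∈ cluster G ω a}
      = ∫⁻ ω, {ω | b ∈ cluster G ω a}.indicator 1 ω ∂bondMeasure V p :=
        (lintegral_indicator_one (measurableSet_mem_cluster G a b)).symm
    _ ≤ ∫⁻ ω, ∑' k : ℕ, ∑ w ∈ pathsOf G k a b, openInd G w ω ∂bondMeasure V p := by
        refine lintegral_mono fun ω => ?_
        by_cases h : b ∈ cluster G ω a
        · obtain ⟨k, w, hw, ho⟩ := exists_path_of_mem_cluster h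
          rw [Set.indicator_of_mem (show ω ∈ {ω | b ∈ cluster G ω a} from h)]
          refine le_trans ?_ (ENNReal.le_tsum k)
          refine le_trans ?_ (Finset.single_le_sum (f := fun w => openInd G w ω)
            (fun i _ => zero_le) hw)
          simp [ho]
        · rw [Set.indicator_of_notMem (show ω ∉ {ω | b ∈ cluster G ω a} from h)]
          exact zero_le
    _ = ∑' k : ℕ, ∑ w ∈ pathsOf G k a b, ∫⁻ ω, openInd G w ω ∂bondMeasure V p := by
        rw [lintegral_tsum fun k =>
          (Finset.measurable_sum _ fun w _ => measurable_openInd w).aemeasurable]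
        exact tsum_congr fun k => lintegral_finsetSum _ fun w _ => measurable_openInd w
    _ ≤ _ := by
        refine ENNReal.tsum_le_tsum fun k => ?_
        calc ∑ w ∈ pathsOf G k a b, ∫⁻ ω, openInd G w ω ∂bondMeasure V p
            = ∑ _w ∈ pathsOf G k a b, ENNReal.ofReal (p : ℝ) ^ k := by
              refine Finset.sum_congr rfl fun w hw => ?_
              simp only [pathsOf, Finset.mem_filter, SimpleGraph.mem_finsetWalkLength_iff] at hw
              rw [lintegral_openInd w hw.2, hw.1]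
          _ ≤ _ := by
              rw [Finset.sum_const, nsmul_eq_mul, mul_comm]
              gcongr
              exact_mod_cast card_pathsOf_le G k a b

omit [G.LocallyFinite] in
theorem measurableSet_unique : MeasurableSet (hasUniqueInfiniteCluster G) := by
  have : hasUniqueInfiniteCluster G = ⋃ x, ({ω | (cluster G ω x).Infinite} ∩
      ⋂ y, ({ω | (cluster G ω y).Infinite}ᶜ ∪ {ω | y ∈ cluster G ω x})) := by
    ext ω
    simp [hasUniqueInfiniteCluster, imp_iff_not_or]
  rw [this]
  exact MeasurableSet.iUnion fun x => (measurableSet_infinite_cluster G x).inter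
    (MeasurableSet.iInter fun y =>
      (measurableSet_infinite_cluster G y).compl.union (measurableSet_mem_cluster G x y))

open Classical in
/-- Uniqueness is impossible while the two point function is a bounded operator. -/
theorem unique_ne_one (hG : IsVertexTransitive G) [Infinite V] {c : ℝ} (hc : 0 < c)
    (h : ∀ (s : Finset V) (f : V → ℝ),
      ∑ x ∈ s, ∑ y ∈ s, (if G.Adj x y then f x * f y else 0) ≤ c * ∑ x ∈ s, f x ^ 2)
    {q : unitInterval} (hq : (q : ℝ) * c < 1) :
    bondMeasure V q (hasUniqueInfiniteCluster G) ≠ 1 := by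
  intro huniq
  set μq := bondMeasure V q with hμq
  have hU : μq (hasUniqueInfiniteCluster G)ᶜ = 0 :=
    (prob_compl_eq_zero_iff measurableSet_unique).2 huniq
  obtain ⟨o⟩ := (inferInstance : Nonempty V)
  set θ : ℝ≥0 := (μq {ω | (cluster G ω o).Infinite}).toNNReal with hθdef
  have hθ : ∀ x, μq {ω | (cluster G ω x).Infinite} = (θ : ℝ≥0∞) := fun x => by
    rw [hθdef, ENNReal.coe_toNNReal (measure_ne_top _ _)]
    exact measure_infinite_eq hG x o
  have hθ0 : 0 < θ := by
    rcases eq_or_ne θ 0 with h0 | h0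
    · exfalso
      have : μq (hasUniqueInfiniteCluster G) ≤ μq (⋃ x, {ω | (cluster G ω x).Infinite}) :=
        measure_mono fun ω hω => Set.mem_iUnion.2 ⟨hω.choose, hω.choose_spec.1⟩
      rw [huniq, measure_iUnion_null fun x => by rw [hθ x, h0, ENNReal.coe_zero]] at this
      simp at this
    · exact pos_iff_ne_zero.2 h0
  set K : ℝ := 1 / (1 - q * c) with hK
  have hq0 : (0 : ℝ) ≤ q := q.2.1
  have hqc : (0 : ℝ) ≤ q * c := mul_nonneg hq0 hc.le
  obtain ⟨n, hn⟩ := exists_nat_gt (K / (θ : ℝ) ^ 2)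
  obtain ⟨F, hF⟩ := Infinite.exists_subset_card_eq V n
  let I : V → (Sym2 V → Bool) → ℝ≥0∞ := fun x =>
    {ω | (cluster G ω x).Infinite}.indicator 1
  have hI : ∀ x, Measurable (I x) := fun x =>
    measurable_one.indicator (measurableSet_infinite_cluster G x)
  have hIi : ∀ x, ∫⁻ ω, I x ω ∂μq = θ := fun x => by
    simp only [I]
    rw [lintegral_indicator_one (measurableSet_infinite_cluster G x), hθ x]
  set a : ℝ≥0 := n * θ with ha
  -- second moment from below
  have hY : ∀ ω, ∑ x ∈ F, I x ω ≠ ⊤ := fun ω => by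
    refine ENNReal.sum_ne_top.2 fun x _ => ?_
    by_cases hx : (cluster G ω x).Infinite <;> simp [I, hx]
  have hlow : (a : ℝ≥0∞) * a ≤ ∫⁻ ω, (∑ x ∈ F, I x ω) * (∑ x ∈ F, I x ω) ∂μq := by
    have hpt : ∀ ω, 2 * (a : ℝ≥0∞) * (∑ x ∈ F, I x ω) ≤
        (a : ℝ≥0∞) * a + (∑ x ∈ F, I x ω) * (∑ x ∈ F, I x ω) := by
      intro ω
      obtain ⟨y, hy⟩ : ∃ y : ℝ≥0, ∑ x ∈ F, I x ω = y :=
        ⟨_, (ENNReal.coe_toNNReal (hY ω)).symm⟩
      rw [hy]
      norm_cast
      have := two_mul_le_add_sq a y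
      simpa [sq] using this
    have h1 := lintegral_mono (μ := μq) hpt
    have hYm : Measurable fun ω => ∑ x ∈ F, I x ω := Finset.measurable_sum _ fun x _ => hI x
    rw [lintegral_const_mul _ hYm, lintegral_finsetSum _ fun x _ => hI x,
      Finset.sum_congr rfl fun x _ => hIi x, Finset.sum_const, nsmul_eq_mul, hF,
      lintegral_add_left measurable_const, lintegral_const, measure_univ, mul_one] at h1
    have h2 : 2 * (a : ℝ≥0∞) * ((n : ℝ≥0∞) * θ) = (a : ℝ≥0∞) * a + (a : ℝ≥0∞) * a := by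
      rw [ha]; push_cast; ring
    rw [h2] at h1
    exact (ENNReal.add_le_add_iff_left (ENNReal.mul_ne_top ENNReal.coe_ne_top ENNReal.coe_ne_top)).1 h1
  -- second moment from above
  have hup : ∫⁻ ω, (∑ x ∈ F, I x ω) * (∑ x ∈ F, I x ω) ∂μq ≤ ENNReal.ofReal (K * n) := by
    simp only [Finset.sum_mul_sum]
    rw [lintegral_finsetSum _ fun x _ => Finset.measurable_sum _ fun y _ => (hI x).fun_mul (hI y),
      Finset.sum_congr rfl fun x _ => lintegral_finsetSum _ fun y _ => (hI x).fun_mul (hI y)]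
    calc ∑ x ∈ F, ∑ y ∈ F, ∫⁻ ω, I x ω * I y ω ∂μq
        ≤ ∑ x ∈ F, ∑ y ∈ F, ∑' k : ℕ, ENNReal.ofReal (q : ℝ) ^ k * (cnt G k x y : ℝ≥0∞) := by
          refine Finset.sum_le_sum fun x _ => Finset.sum_le_sum fun y _ => ?_
          have hxy : (fun ω => I x ω * I y ω) = ({ω | (cluster G ω x).Infinite} ∩
              {ω | (cluster G ω y).Infinite}).indicator 1 := by
            funext ω
            by_cases h1 : (cluster G ω x).Infinite <;> by_cases h2 : (cluster G ω y).Infinite <;>
              simp [I, Set.indicator, h1, h2]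
          rw [hxy, lintegral_indicator_one
            ((measurableSet_infinite_cluster G x).inter (measurableSet_infinite_cluster G y))]
          refine le_trans ?_ (measure_mem_cluster_le q x y)
          calc μq ({ω | (cluster G ω x).Infinite} ∩ {ω | (cluster G ω y).Infinite})
              ≤ μq ({ω | y ∈ cluster G ω x} ∪ (hasUniqueInfiniteCluster G)ᶜ) := by
                refine measure_mono fun ω hω => ?_
                by_cases hu : ω ∈ hasUniqueInfiniteCluster G
                · obtain ⟨z, -, hz⟩ := hu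
                  exact Or.inl (SimpleGraph.Reachable.trans
                    (SimpleGraph.Reachable.symm (hz x hω.1)) (hz y hω.2))
                · exact Or.inr hu
            _ ≤ μq {ω | y ∈ cluster G ω x} + μq (hasUniqueInfiniteCluster G)ᶜ :=
                measure_union_le _ _
            _ = _ := by rw [hU, add_zero]
      _ = ∑' k : ℕ, ∑ x ∈ F, ∑ y ∈ F, ENNReal.ofReal (q : ℝ) ^ k * (cnt G k x y : ℝ≥0∞) := by
          rw [Summable.tsum_finsetSum fun x _ => ENNReal.summable]
          exact Finset.sum_congr rfl fun x _ =>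
            (Summable.tsum_finsetSum fun y _ => ENNReal.summable).symm
      _ ≤ ∑' k : ℕ, ENNReal.ofReal ((q * c) ^ k * n) := by
          refine ENNReal.tsum_le_tsum fun k => ?_
          simp only [← ENNReal.ofReal_natCast, ← ENNReal.ofReal_pow hq0,
            ← ENNReal.ofReal_mul (pow_nonneg hq0 k)]
          simp (discharger := (intros; positivity)) only [← ENNReal.ofReal_sum_of_nonneg]
          refine ENNReal.ofReal_le_ofReal ?_
          simp only [← Finset.mul_sum]
          rw [mul_pow, mul_assoc, ← hF]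
          gcongr
          exact sum_cnt_le_pow hc h k F
      _ = ENNReal.ofReal (K * n) := by
          rw [← ENNReal.ofReal_tsum_of_nonneg (fun k => by positivity)
            ((summable_geometric_of_lt_one hqc hq).mul_right _), tsum_mul_right,
            tsum_geometric_of_lt_one hqc hq, hK, one_div]
  have h := hlow.trans hup
  rw [← ENNReal.coe_mul, ← ENNReal.ofReal_coe_nnreal] at h
  have hK0 : 0 ≤ K := by rw [hK]; exact div_nonneg zero_le_one (by linarith)
  rw [ENNReal.ofReal_le_ofReal_iff (by positivity), ha] at h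
  push_cast at h
  have hθr : (0 : ℝ) < θ := by exact_mod_cast hθ0
  rw [div_lt_iff₀ (by positivity)] at hn
  have hn0 : (0 : ℝ) < n := by
    by_contra hcon
    have : (n : ℝ) = 0 := le_antisymm (not_lt.1 hcon) (Nat.cast_nonneg n)
    rw [this, zero_mul] at hn
    linarith
  nlinarith

omit [G.LocallyFinite] in
theorem unique_one [Infinite V] (hconn : G.Connected) :
    bondMeasure V 1 (hasUniqueInfiniteCluster G) = 1 := by
  have h1 : bondMeasure V 1 = Measure.dirac (fun _ : Sym2 V => true) := by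
    unfold bondMeasure
    rw [show (fun _ : Sym2 V => bernoulliMeasure true false 1)
      = fun _ : Sym2 V => Measure.dirac true from funext fun _ => by simp]
    exact Measure.infinitePi_dirac _
  rw [h1, Measure.dirac_apply' _ measurableSet_unique, Set.indicator_of_mem, Pi.one_apply]
  have hopen : openGraph G (fun _ => true) = G := by
    ext x y; simp [openGraph_adj]
  have hall : ∀ x, cluster G (fun _ => true) x = Set.univ := fun x => by
    ext y; simp only [cluster, hopen, Set.mem_ofPred_eq, Set.mem_univ, iff_true]; exact hconn x y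
  obtain ⟨o⟩ := hconn.nonempty
  exact ⟨o, by rw [hall]; exact Set.infinite_univ, fun y _ => by rw [hall]; trivial⟩

end Bounds

/-- Nonuniqueness for transitive graphs of high degree with a spectral gap. -/
theorem high_degree (ρ : ℝ) (hρ : ρ < 1) (ε : ℝ) (hε : 0 < ε) :
    ∃ D : ℕ, ∀ (V : Type*) (G : SimpleGraph V) [G.LocallyFinite] (d : ℕ),
      Infinite V → G.Connected → IsVertexTransitive G → (∀ x, G.degree x = d) → D ≤ d →
      SpectralRadiusLE G ρ →
        pCritical G ≤ (1 + ε) / d ∧ pCritical G < pUniqueness G := by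
  set r : ℝ := max ρ (1 / 2) with hr
  have hr0 : 0 < r := lt_of_lt_of_le (by norm_num) (le_max_right _ _)
  have hr1 : r < 1 := max_lt hρ (by norm_num)
  set μ : ℝ := min (1 + ε) (2 / (1 + r)) with hμ
  have hμ1 : 1 < μ := lt_min (by linarith) (by rw [lt_div_iff₀ (by linarith)]; linarith)
  have hμ2 : μ < 2 := lt_of_le_of_lt (min_le_right _ _)
    (by rw [div_lt_iff₀ (by linarith)]; linarith)
  have hμr : μ * r < 1 := by
    calc μ * r ≤ 2 / (1 + r) * r := mul_le_mul_of_nonneg_right (min_le_right _ _) hr0.le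
      _ < 1 := by rw [div_mul_eq_mul_div, div_lt_one (by linarith)]; linarith
  set δ : ℝ := (μ - 1) / 12 with hδdef
  have hδ : 0 < δ := by rw [hδdef]; linarith
  have hc : 0 < μ * (1 - δ) - 1 - μ ^ 2 * δ := by
    have : μ * δ + μ ^ 2 * δ ≤ 6 * δ := by
      nlinarith [mul_nonneg hδ.le (show (0:ℝ) ≤ 2 - μ by linarith)]
    linarith
  obtain ⟨D₀, hD₀, hker⟩ := exists_degree_pathSum_le (μ := μ) (ρ := r) (δ := δ)
    (by linarith) hr0 hμr hδ
  refine ⟨max D₀ 2, ?_⟩
  intro V G _ d hinf hconn htr hdeg hDd hspec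
  have : Countable V := countable_of_connected G hconn
  have hd2 : 2 ≤ d := (le_max_right _ _).trans hDd
  have hd0 : (0 : ℝ) < d := by
    have : 0 < d := by omega
    exact_mod_cast this
  classical
  have hform : ∀ (s : Finset V) (f : V → ℝ),
      ∑ x ∈ s, ∑ y ∈ s, (if G.Adj x y then f x * f y else 0) ≤ r * d * ∑ x ∈ s, f x ^ 2 := by
    intro s f
    convert form_le hdeg hspec (le_max_left ρ (1 / 2)) s f using 4
  have hcnt : ∀ (k : ℕ) (a b : V), (cnt G k a b : ℝ) ≤ (r * d) ^ k := fun k a b =>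
    cnt_le_pow (mul_pos hr0 hd0) hform k a b
  have hpmem : μ / d ∈ Set.Icc (0 : ℝ) 1 := by
    refine ⟨by positivity, (div_le_one hd0).2 ?_⟩
    have : (2 : ℝ) ≤ d := by exact_mod_cast hd2
    linarith
  set p : unitInterval := ⟨μ / d, hpmem⟩ with hp
  have hpos : ∀ o : V, 0 < bondMeasure V p {ω | (cluster G ω o).Infinite} :=
    measure_infinite_pos htr (by omega) hdeg (by linarith) hδ.le hc (p := p) rfl
      (hker G d ((le_max_left _ _).trans hDd) hdeg hcnt)
  obtain ⟨o⟩ := hconn.nonempty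
  have hmem : 0 < bondMeasure V p (hasInfiniteCluster G) :=
    lt_of_lt_of_le (hpos o) (measure_mono fun ω hω => ⟨o, hω⟩)
  have hpc : pCritical G ≤ μ / d :=
    csInf_le ⟨0, by rintro _ ⟨q, -, rfl⟩; exact q.2.1⟩ ⟨p, hmem, rfl⟩
  refine ⟨hpc.trans (div_le_div_of_nonneg_right (min_le_left _ _) hd0.le), ?_⟩
  have hrd : 0 < r * d := mul_pos hr0 hd0
  have hpu : min 1 (1 / (r * d)) ≤ pUniqueness G := by
    refine le_csInf ⟨1, ⟨1, unique_one hconn, rfl⟩⟩ ?_
    rintro _ ⟨q, hq, rfl⟩
    by_contra hcon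
    push Not at hcon
    have h1 : (q : ℝ) * (r * d) < 1 := by
      have := hcon.trans_le (min_le_right _ _)
      rwa [lt_div_iff₀ hrd] at this
    exact unique_ne_one htr hrd hform h1 hq
  refine lt_of_lt_of_le (lt_of_le_of_lt hpc (lt_min ?_ ?_)) hpu
  · rw [div_lt_one hd0]
    have : (2 : ℝ) ≤ d := by exact_mod_cast hd2
    linarith
  · rw [div_lt_div_iff₀ hd0 hrd]
    calc μ * (r * d) = (μ * r) * d := by ring
      _ < 1 * d := mul_lt_mul_of_pos_right hμr hd0

end Vale.Agent.P165
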