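import Vale.Agent.P165.Size

/-!
# The one-step inequality for the expected capped cluster size
-/

namespace Vale.Agent.P165

open MeasureTheory ProbabilityTheory
open scoped ENNReal

variable {V : Type*}

/-- `G` restricted to the edges with both ends in `S`. -/
def window (G : SimpleGraph V) (S : Set V) : SimpleGraph V where
  Adj a b := G.Adj a b ∧ a ∈ S ∧ b ∈ S
  symm := ⟨fun _ _ h => ⟨h.1.symm, h.2.2, h.2.1⟩⟩
  loopless := ⟨fun _ h => h.1.ne rfl⟩

theorem window_le (G : SimpleGraph V) (S : Set V) : window G S ≤ G := fun _ _ h => h.1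

theorem window_mono (G : SimpleGraph V) {S T : Set V} (h : S ⊆ T) : window G S ≤ window G T :=
  fun _ _ hab => ⟨hab.1, h hab.2.1, h hab.2.2⟩

theorem window_edge_mem {G : SimpleGraph V} {S : Set V} {e : Sym2 V}
    (he : e ∈ (window G S).edgeSet) {v : V} (hv : v ∈ e) : v ∈ S := by
  induction e using Sym2.ind with
  | _ a b =>
    rcases Sym2.mem_iff.1 hv with rfl | rfl
    · exact he.2.1
    · exact he.2.2

/-- A cluster does not see what lies outside it. -/
theorem cluster_window_compl_eq {G : SimpleGraph V} {ω : Sym2 V → Bool} {b : V} {A : Set V}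
    (h : Disjoint (cluster G ω b) A) : cluster (window G Aᶜ) ω b = cluster G ω b := by
  refine subset_antisymm (cluster_mono (window_le G _) ω b) fun z hz => ?_
  have key : ∀ {u v : V} (_ : (openGraph G ω).Walk u v), u ∈ cluster G ω b →
      (openGraph (window G Aᶜ) ω).Reachable u v := by
    intro u v q
    induction q with
    | nil => intro _; exact SimpleGraph.Reachable.refl _
    | @cons u w v huw q ih =>
      intro hu
      have hw : w ∈ cluster G ω b := SimpleGraph.Reachable.trans hu huw.reachable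
      refine SimpleGraph.Reachable.trans (SimpleGraph.Adj.reachable ?_) (ih hw)
      exact ⟨⟨huw.1, Set.disjoint_left.1 h hu, Set.disjoint_left.1 h hw⟩, huw.2⟩
  obtain ⟨q⟩ := hz
  exact key q (mem_cluster_self G ω b)

theorem cluster_window_subset_insert (G : SimpleGraph V) (S : Set V) (ω : Sym2 V → Bool)
    (b : V) : cluster (window G S) ω b ⊆ insert b S := by
  have key : ∀ {u v : V} (_ : (openGraph (window G S) ω).Walk u v),
      u ∈ insert b S → v ∈ insert b S := by
    intro u v q
    induction q with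
    | nil => exact id
    | @cons u w v huw q ih => exact fun _ => ih (Set.mem_insert_of_mem _ huw.1.2.2)
  intro z hz
  obtain ⟨q⟩ := hz
  exact key q (Set.mem_insert _ _)

/-- The event that the cluster of `b` is `S` only depends on the edges touching `S`. -/
theorem cluster_eq_of_agree {G : SimpleGraph V} {ω ω' : Sym2 V → Bool} {b : V} {S : Set V}
    (h : ∀ e : Sym2 V, (∃ v ∈ e, v ∈ S) → ω e = ω' e) (hS : cluster G ω b = S) :
    cluster G ω' b = S := by
  have key1 : ∀ {u v : V} (_ : (openGraph G ω).Walk u v), u ∈ S →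
      (openGraph G ω').Reachable u v := by
    intro u v q
    induction q with
    | nil => intro _; exact SimpleGraph.Reachable.refl _
    | @cons u w v huw q ih =>
      intro hu
      have hw : w ∈ S := by
        rw [← hS] at hu ⊢
        exact SimpleGraph.Reachable.trans hu huw.reachable
      exact SimpleGraph.Reachable.trans
        (SimpleGraph.Adj.reachable
          ⟨huw.1, (h s(u, w) ⟨u, Sym2.mem_mk_left _ _, hu⟩) ▸ huw.2⟩) (ih hw)
  have key2 : ∀ {u v : V} (_ : (openGraph G ω').Walk u v), u ∈ S → v ∈ S := by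
    intro u v q
    induction q with
    | nil => exact id
    | @cons u w v huw q ih =>
      intro hu
      refine ih ?_
      have h2 : (openGraph G ω).Adj u w :=
        ⟨huw.1, (h s(u, w) ⟨u, Sym2.mem_mk_left _ _, hu⟩).symm ▸ huw.2⟩
      rw [← hS] at hu ⊢
      exact SimpleGraph.Reachable.trans hu h2.reachable
  have hb : b ∈ S := hS ▸ mem_cluster_self G ω b
  refine subset_antisymm (fun z hz => ?_) (fun z hz => ?_)
  · obtain ⟨q⟩ := hz
    exact key2 q hb
  · rw [← hS] at hz
    obtain ⟨q⟩ := hz
    exact key1 q hb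

/-- The elementary capped superadditivity. -/
theorem mul_add_le_mul_min_add {N x y : ℕ} (hx : x ≤ N) (hy : y ≤ N) :
    N * (x + y) ≤ N * min (x + y) N + x * y := by
  rcases le_total (x + y) N with h | h
  · rw [min_eq_left h]; exact Nat.le_add_right _ _
  · rw [min_eq_right h]
    obtain ⟨i, rfl⟩ := Nat.exists_eq_add_of_le hx
    obtain ⟨j, hj⟩ := Nat.exists_eq_add_of_le hy
    nlinarith

open Classical in
/-- The error term of an ordered pair of roots. -/
noncomputable def pairErr (N : ℕ) (H : SimpleGraph V) (ω : Sym2 V → Bool) (z : V × V) : ℕ :=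
  (if z.2 ∈ cluster H ω z.1 then 0 else
      capSize N (cluster H ω z.1) * capSize N (cluster H ω z.2)) +
    (if z.2 ∈ cluster H ω z.1 then N * capSize N (cluster H ω z.1) else 0)

open Classical in
theorem mul_sum_capSize_le (N : ℕ) (H : SimpleGraph V) (ω : Sym2 V → Bool) (B : Finset V) :
    N * ∑ b ∈ B, capSize N (cluster H ω b) ≤
      N * capSize N (⋃ b ∈ B, cluster H ω b) + ∑ z ∈ B.offDiag, pairErr N H ω z := by
  induction B using Finset.induction_on with
  | empty => simp
  | @insert a B ha ih =>
    set U : Set V := ⋃ b ∈ B, cluster H ω b with hU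
    rw [Finset.sum_insert ha, Finset.set_biUnion_insert]
    by_cases hcase : ∃ b ∈ B, a ∈ cluster H ω b
    · obtain ⟨b, hb, hab⟩ := hcase
      have heq : cluster H ω a = cluster H ω b := cluster_eq_of_mem hab
      have hsub : cluster H ω a ∪ U = U := by
        refine Set.union_eq_right.2 ?_
        rw [heq]
        exact Set.subset_biUnion_of_mem (u := fun b => cluster H ω b) hb
      rw [hsub]
      have hne : (a, b) ∉ B.offDiag := fun h => ha (Finset.mem_offDiag.1 h).1
      have hss : insert (a, b) B.offDiag ⊆ (insert a B).offDiag := by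
        intro z hz
        rcases Finset.mem_insert.1 hz with rfl | hz
        · exact Finset.mem_offDiag.2 ⟨Finset.mem_insert_self _ _, Finset.mem_insert_of_mem hb,
            fun h => ha ((show a = b from h) ▸ hb)⟩
        · exact Finset.offDiag_mono (Finset.subset_insert a B) hz
      have h1 := Finset.sum_le_sum_of_subset (f := pairErr N H ω) hss
      rw [Finset.sum_insert hne] at h1
      have h2 : N * capSize N (cluster H ω a) ≤ pairErr N H ω (a, b) := by
        have : b ∈ cluster H ω a := SimpleGraph.Reachable.symm hab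
        simp [pairErr, this]
      rw [Nat.mul_add]
      omega
    · push Not at hcase
      have hdis : Disjoint (cluster H ω a) U := by
        rw [hU, Set.disjoint_iUnion₂_right]
        exact fun b hb => (disjoint_cluster_of_notMem (hcase b hb)).symm
      rw [capSize_union_of_disjoint hdis]
      have h3 := mul_add_le_mul_min_add (capSize_le N (cluster H ω a)) (capSize_le N U)
      have h4 : capSize N (cluster H ω a) * capSize N U ≤
          ∑ b ∈ B, pairErr N H ω (b, a) := by
        refine (Nat.mul_le_mul_left _ (capSize_biUnion_le N B _)).trans ?_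
        rw [Finset.mul_sum]
        refine Finset.sum_le_sum fun b hb => ?_
        simp [pairErr, hcase b hb, Nat.mul_comm]
      have hdisj : Disjoint B.offDiag (B ×ˢ {a}) := by
        rw [Finset.disjoint_left]
        intro z hz hz'
        have h5 := (Finset.mem_offDiag.1 hz).2.1
        rw [Finset.mem_singleton.1 (Finset.mem_product.1 hz').2] at h5
        exact ha h5
      have hss : B.offDiag ∪ B ×ˢ {a} ⊆ (insert a B).offDiag := by
        intro z hz
        rcases Finset.mem_union.1 hz with hz | hz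
        · exact Finset.offDiag_mono (Finset.subset_insert a B) hz
        · obtain ⟨h5, h6⟩ := Finset.mem_product.1 hz
          rw [Finset.mem_singleton] at h6
          exact Finset.mem_offDiag.2 ⟨Finset.mem_insert_of_mem h5,
            h6 ▸ Finset.mem_insert_self _ _, fun h => ha (h6 ▸ h ▸ h5)⟩
      have h1 := Finset.sum_le_sum_of_subset (f := pairErr N H ω) hss
      rw [Finset.sum_union hdisj, Finset.sum_product] at h1
      simp only [Finset.sum_singleton] at h1
      rw [Nat.mul_add] at h3 ⊢
      -- combine the induction hypothesis with the capped superadditivity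
      calc N * capSize N (cluster H ω a) + N * ∑ b ∈ B, capSize N (cluster H ω b)
          ≤ N * capSize N (cluster H ω a) +
              (N * capSize N U + ∑ z ∈ B.offDiag, pairErr N H ω z) := by omega
        _ ≤ _ := by omega

section Expectation

variable [Countable V] {p : unitInterval}

theorem measurableSet_cluster_eq (G : SimpleGraph V) (b : V) (S : Set V) :
    MeasurableSet {ω : Sym2 V → Bool | cluster G ω b = S} := by
  have : {ω : Sym2 V → Bool | cluster G ω b = S}
      = ⋂ z : V, {ω | z ∈ cluster G ω b ↔ z ∈ S} := by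
    ext ω; simp [Set.ext_iff]
  rw [this]
  refine MeasurableSet.iInter fun z => ?_
  by_cases hz : z ∈ S
  · simpa [hz] using measurableSet_mem_cluster G b z
  · convert (measurableSet_mem_cluster G b z).compl using 1
    ext ω; simp [hz]

open Classical in
/-- Two clusters which differ are negatively correlated. -/
theorem lintegral_diff_le (N : ℕ) (M : ℝ≥0∞) {G : SimpleGraph V}
    (hM : ∀ u, ∫⁻ ω, (capSize N (cluster G ω u) : ℝ≥0∞) ∂bondMeasure V p ≤ M)
    (Λ : Finset V) (a b : V) :
    ∫⁻ ω, (if b ∈ cluster (window G Λ) ω a then 0 else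
        (capSize N (cluster (window G Λ) ω a) : ℝ≥0∞) *
          (capSize N (cluster (window G Λ) ω b) : ℝ≥0∞)) ∂bondMeasure V p ≤ M * M := by
  set H := window G (Λ : Set V) with hH
  have hsmall : ∀ (H' : SimpleGraph V), H' ≤ G → ∀ u,
      ∫⁻ ω, (capSize N (cluster H' ω u) : ℝ≥0∞) ∂bondMeasure V p ≤ M := fun H' hle u =>
    (lintegral_mono fun ω => Nat.cast_le.2 (capSize_mono (cluster_mono hle ω u))).trans (hM u)
  set P : Finset (Finset V) := (insert a Λ).powerset with hP
  let f : Finset V → (Sym2 V → Bool) → ℝ≥0∞ := fun S =>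
    Set.indicator {ω | cluster H ω a = (S : Set V)} fun _ => (capSize N (S : Set V) : ℝ≥0∞)
  let X : Finset V → (Sym2 V → Bool) → ℝ≥0∞ := fun S ω =>
    (capSize N (cluster (window H (S : Set V)ᶜ) ω b) : ℝ≥0∞)
  have hfm : ∀ S, Measurable (f S) := fun S =>
    measurable_const.indicator (measurableSet_cluster_eq H a _)
  have hXm : ∀ S, Measurable (X S) := fun S => measurable_capSize N _ b
  have hfin : ∀ ω, ∃ S ∈ P, cluster H ω a = (S : Set V) := by
    intro ω
    have hsub : cluster H ω a ⊆ ((insert a Λ : Finset V) : Set V) := by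
      rw [Finset.coe_insert]; exact cluster_window_subset_insert G _ ω a
    have hf : (cluster H ω a).Finite := (Finset.finite_toSet _).subset hsub
    exact ⟨hf.toFinset, Finset.mem_powerset.2 fun z hz => hsub (hf.mem_toFinset.1 hz), by simp⟩
  have hpt : ∀ ω, (if b ∈ cluster H ω a then 0 else
      (capSize N (cluster H ω a) : ℝ≥0∞) * (capSize N (cluster H ω b) : ℝ≥0∞)) ≤
        ∑ S ∈ P, f S ω * X S ω := by
    intro ω
    split_ifs with hb
    · exact zero_le
    · obtain ⟨S, hS, hSeq⟩ := hfin ω
      refine le_trans ?_ (Finset.single_le_sum (f := fun S => f S ω * X S ω)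
        (fun i _ => zero_le) hS)
      have hdis : Disjoint (cluster H ω b) (S : Set V) := by
        rw [← hSeq]; exact (disjoint_cluster_of_notMem hb).symm
      simp only [f, X, cluster_window_compl_eq hdis]
      rw [Set.indicator_of_mem (show ω ∈ {ω | cluster H ω a = (S : Set V)} from hSeq), hSeq]
  have hsum : ∀ ω, ∑ S ∈ P, f S ω ≤ (capSize N (cluster H ω a) : ℝ≥0∞) := by
    intro ω
    obtain ⟨S, hS, hSeq⟩ := hfin ω
    rw [Finset.sum_eq_single_of_mem S hS]
    · simp only [f]
      rw [Set.indicator_of_mem (show ω ∈ {ω | cluster H ω a = (S : Set V)} from hSeq), hSeq]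
    · intro T _ hT
      refine Set.indicator_of_notMem ?_ _
      intro hT'
      exact hT (Finset.coe_injective ((show cluster H ω a = (T : Set V) from hT').symm.trans hSeq))
  calc ∫⁻ ω, _ ∂bondMeasure V p ≤ ∫⁻ ω, ∑ S ∈ P, f S ω * X S ω ∂bondMeasure V p :=
        lintegral_mono hpt
    _ = ∑ S ∈ P, ∫⁻ ω, f S ω * X S ω ∂bondMeasure V p :=
        lintegral_finsetSum _ fun S _ => (hfm S).mul (hXm S)
    _ ≤ ∑ S ∈ P, (∫⁻ ω, f S ω ∂bondMeasure V p) * M := by
        refine Finset.sum_le_sum fun S _ => ?_
        rw [lintegral_mul_of_dep {e | ∃ v ∈ e, v ∈ (S : Set V)} (f S) (X S) (hfm S) (hXm S)]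
        · gcongr
          exact hsmall _ ((window_le _ _).trans (window_le _ _)) b
        · intro ω ω' h
          have : cluster H ω a = (S : Set V) ↔ cluster H ω' a = (S : Set V) :=
            ⟨cluster_eq_of_agree h, cluster_eq_of_agree fun e he => (h e he).symm⟩
          by_cases hc : cluster H ω a = (S : Set V)
          · simp only [f]
            rw [Set.indicator_of_mem (show ω ∈ {ω | cluster H ω a = (S : Set V)} from hc),
              Set.indicator_of_mem (show ω' ∈ {ω | cluster H ω a = (S : Set V)} from this.1 hc)]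
          · simp only [f]
            rw [Set.indicator_of_notMem (show ω ∉ {ω | cluster H ω a = (S : Set V)} from hc),
              Set.indicator_of_notMem
                (show ω' ∉ {ω | cluster H ω a = (S : Set V)} from fun h' => hc (this.2 h'))]
        · intro ω ω' h
          simp only [X]
          rw [cluster_congr (fun e he => h e ?_)]
          rintro ⟨v, hv, hvS⟩
          exact window_edge_mem he hv hvS
    _ = (∫⁻ ω, ∑ S ∈ P, f S ω ∂bondMeasure V p) * M := by
        rw [lintegral_finsetSum _ fun S _ => hfm S, Finset.sum_mul]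
    _ ≤ M * M := by
        gcongr
        exact (lintegral_mono hsum).trans (hsmall _ (window_le _ _) a)

open Classical in
/-- The indicator that an edge is open. -/
noncomputable def edgeInd (e : Sym2 V) (ω : Sym2 V → Bool) : ℝ≥0∞ :=
  if ω e = true then 1 else 0

omit [Countable V] in
theorem measurable_edgeInd (e : Sym2 V) : Measurable (edgeInd (V := V) e) := by
  unfold edgeInd
  exact Measurable.ite
    (measurable_pi_apply (X := fun _ : Sym2 V => Bool) e (MeasurableSet.singleton true))
    measurable_const measurable_const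

omit [Countable V] in
theorem lintegral_edgeInd (e : Sym2 V) :
    ∫⁻ ω, edgeInd e ω ∂bondMeasure V p = ENNReal.ofReal (p : ℝ) := by
  classical
  have he : edgeInd (V := V) e
      = Set.indicator {ω | ∀ e' ∈ ({e} : Finset (Sym2 V)), ω e' = true} 1 := by
    funext ω; simp [edgeInd, Set.indicator]
  rw [he, lintegral_indicator_one (measurableSet_open _), bondMeasure_open]
  simp

omit [Countable V] in
theorem lintegral_edgeInd_mul {e e' : Sym2 V} (h : e ≠ e') :
    ∫⁻ ω, edgeInd e ω * edgeInd e' ω ∂bondMeasure V p = ENNReal.ofReal (p : ℝ) ^ 2 := by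
  classical
  have he : (fun ω => edgeInd (V := V) e ω * edgeInd e' ω)
      = Set.indicator {ω | ∀ e'' ∈ ({e, e'} : Finset (Sym2 V)), ω e'' = true} 1 := by
    funext ω
    by_cases h1 : ω e = true <;> by_cases h2 : ω e' = true <;> simp [edgeInd, Set.indicator, h1, h2]
  rw [he, lintegral_indicator_one (measurableSet_open _), bondMeasure_open, Finset.card_pair h]

variable {G : SimpleGraph V} [G.LocallyFinite]

open Classical in
theorem lintegral_pairErr_le (N : ℕ) (M : ℝ≥0∞)
    (hM : ∀ u, ∫⁻ ω, (capSize N (cluster G ω u) : ℝ≥0∞) ∂bondMeasure V p ≤ M)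
    (Λ : Finset V) (z : V × V) :
    ∫⁻ ω, (pairErr N (window G Λ) ω z : ℝ≥0∞) ∂bondMeasure V p ≤
      M * M + (N : ℝ≥0∞) * (pathSum G p z.1 z.2 * M) := by
  have hm : Measurable fun ω => (if z.2 ∈ cluster (window G Λ) ω z.1 then 0 else
        (capSize N (cluster (window G Λ) ω z.1) : ℝ≥0∞) *
          (capSize N (cluster (window G Λ) ω z.2) : ℝ≥0∞)) :=
    Measurable.ite (measurableSet_mem_cluster _ _ _) measurable_const
      ((measurable_capSize N _ _).mul (measurable_capSize N _ _))
  calc ∫⁻ ω, (pairErr N (window G Λ) ω z : ℝ≥0∞) ∂bondMeasure V p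
      ≤ ∫⁻ ω, ((if z.2 ∈ cluster (window G Λ) ω z.1 then 0 else
          (capSize N (cluster (window G Λ) ω z.1) : ℝ≥0∞) *
            (capSize N (cluster (window G Λ) ω z.2) : ℝ≥0∞)) +
          (N : ℝ≥0∞) * (if z.2 ∈ cluster G ω z.1 then
            (capSize N (cluster G ω z.1) : ℝ≥0∞) else 0)) ∂bondMeasure V p := by
        refine lintegral_mono fun ω => ?_
        unfold pairErr
        push_cast
        gcongr
        split_ifs with h1 h2 h2
        · gcongr
          exact Nat.cast_le.2 (capSize_mono (cluster_mono (window_le _ _) ω _))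
        · exact absurd (cluster_mono (window_le _ _) ω _ h1) h2
        · exact zero_le
        · exact zero_le
    _ ≤ _ := by
        rw [lintegral_add_left hm, lintegral_const_mul' _ _ (by simp)]
        gcongr
        · exact lintegral_diff_le N M hM Λ z.1 z.2
        · exact lintegral_mem_cluster_le N M hM z.1 z.2

open Classical in
/-- The inequality in a finite window avoiding `x`. -/
theorem window_step (N : ℕ) (M δ : ℝ≥0∞)
    (hM : ∀ u, ∫⁻ ω, (capSize N (cluster G ω u) : ℝ≥0∞) ∂bondMeasure V p ≤ M)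
    (hS : ∀ a b, a ≠ b → pathSum G p a b ≤ δ) {x : V} (Λ : Finset V) (hx : x ∉ Λ) :
    (N : ℝ≥0∞) * (ENNReal.ofReal (p : ℝ) * ∑ b ∈ G.neighborFinset x,
        ∫⁻ ω, (capSize N (cluster (window G Λ) ω b) : ℝ≥0∞) ∂bondMeasure V p) ≤
      (N : ℝ≥0∞) * M + (G.degree x : ℝ≥0∞) ^ 2 *
        (ENNReal.ofReal (p : ℝ) ^ 2 * (M * M + (N : ℝ≥0∞) * (δ * M))) := by
  set H := window G (Λ : Set V) with hH
  set nb := G.neighborFinset x with hnb
  have hxe : ∀ b, s(x, b) ∉ H.edgeSet := fun b he =>
    hx (Finset.mem_coe.1 (window_edge_mem he (Sym2.mem_mk_left x b)))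
  have hterm : ∀ b, Measurable fun ω => edgeInd s(x, b) ω * (capSize N (cluster H ω b) : ℝ≥0∞) :=
    fun b => (measurable_edgeInd _).mul (measurable_capSize N _ _)
  have hpe : ∀ z : V × V, Measurable fun ω => (pairErr N H ω z : ℝ≥0∞) := by
    intro z
    simp only [pairErr, Nat.cast_add, Nat.cast_ite, Nat.cast_mul, Nat.cast_zero]
    exact (Measurable.ite (measurableSet_mem_cluster _ _ _) measurable_const
      ((measurable_capSize N _ _).mul (measurable_capSize N _ _))).add
      (Measurable.ite (measurableSet_mem_cluster _ _ _)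
      (measurable_const.mul (measurable_capSize N _ _)) measurable_const)
  have hpair : ∀ z : V × V, Measurable fun ω =>
      edgeInd s(x, z.1) ω * edgeInd s(x, z.2) ω * (pairErr N H ω z : ℝ≥0∞) := fun z =>
    ((measurable_edgeInd _).mul (measurable_edgeInd _)).mul (hpe z)
  have hpt : ∀ ω, (N : ℝ≥0∞) * ∑ b ∈ nb, edgeInd s(x, b) ω * (capSize N (cluster H ω b) : ℝ≥0∞) ≤
      (N : ℝ≥0∞) * (capSize N (cluster G ω x) : ℝ≥0∞) +
        ∑ z ∈ nb.offDiag, edgeInd s(x, z.1) ω * edgeInd s(x, z.2) ω * (pairErr N H ω z : ℝ≥0∞) := by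
    intro ω
    set B := nb.filter fun b => ω s(x, b) = true with hB
    have h := mul_sum_capSize_le N H ω B
    have hsub : (⋃ b ∈ B, cluster H ω b) ⊆ cluster G ω x := by
      refine Set.iUnion₂_subset fun b hb z hz => ?_
      rw [hB, Finset.mem_filter, hnb, SimpleGraph.mem_neighborFinset] at hb
      exact SimpleGraph.Reachable.trans
        (SimpleGraph.Adj.reachable (show (openGraph G ω).Adj x b from ⟨hb.1, hb.2⟩))
        (cluster_mono (window_le _ _) ω b hz)
    have hoff : B.offDiag = nb.offDiag.filter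
        fun z => ω s(x, z.1) = true ∧ ω s(x, z.2) = true := by
      ext z; simp [hB]; tauto
    have h' : N * ∑ b ∈ B, capSize N (cluster H ω b) ≤
        N * capSize N (cluster G ω x) + ∑ z ∈ B.offDiag, pairErr N H ω z :=
      h.trans (by gcongr; exact capSize_mono hsub)
    have h'' : ((N * ∑ b ∈ B, capSize N (cluster H ω b) : ℕ) : ℝ≥0∞) ≤
        ((N * capSize N (cluster G ω x) + ∑ z ∈ B.offDiag, pairErr N H ω z : ℕ) : ℝ≥0∞) :=
      Nat.cast_le.2 h'
    push_cast at h''
    have e1 : ∑ b ∈ nb, edgeInd s(x, b) ω * (capSize N (cluster H ω b) : ℝ≥0∞)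
        = ∑ b ∈ B, (capSize N (cluster H ω b) : ℝ≥0∞) := by
      rw [hB, Finset.sum_filter]
      refine Finset.sum_congr rfl fun b _ => ?_
      simp [edgeInd]
    have e2 : ∑ z ∈ nb.offDiag, edgeInd s(x, z.1) ω * edgeInd s(x, z.2) ω *
        (pairErr N H ω z : ℝ≥0∞) = ∑ z ∈ B.offDiag, (pairErr N H ω z : ℝ≥0∞) := by
      rw [hoff, Finset.sum_filter]
      refine Finset.sum_congr rfl fun z _ => ?_
      by_cases h1 : ω s(x, z.1) = true <;> by_cases h2 : ω s(x, z.2) = true <;>
        simp [edgeInd, h1, h2]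
    rw [e1, e2]
    exact h''
  have hLHS : ∀ b, ∫⁻ ω, edgeInd s(x, b) ω * (capSize N (cluster H ω b) : ℝ≥0∞) ∂bondMeasure V p
      = ENNReal.ofReal (p : ℝ) * ∫⁻ ω, (capSize N (cluster H ω b) : ℝ≥0∞) ∂bondMeasure V p := by
    intro b
    rw [lintegral_mul_of_dep {s(x, b)} _ _ (measurable_edgeInd _) (measurable_capSize N _ _),
      lintegral_edgeInd]
    · intro ω ω' h; simp [edgeInd, h s(x, b) rfl]
    · intro ω ω' h
      rw [cluster_congr fun e he => h e fun he' => hxe b (by rwa [Set.mem_singleton_iff.1 he'] at he)]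
  have hRHS : ∀ z ∈ nb.offDiag, ∫⁻ ω, edgeInd s(x, z.1) ω * edgeInd s(x, z.2) ω *
      (pairErr N H ω z : ℝ≥0∞) ∂bondMeasure V p ≤
        ENNReal.ofReal (p : ℝ) ^ 2 * (M * M + (N : ℝ≥0∞) * (δ * M)) := by
    intro z hz
    have hne : z.1 ≠ z.2 := (Finset.mem_offDiag.1 hz).2.2
    have hee : s(x, z.1) ≠ s(x, z.2) := fun h => hne (Sym2.congr_right.1 h)
    rw [lintegral_mul_of_dep {s(x, z.1), s(x, z.2)}
      (fun ω => edgeInd s(x, z.1) ω * edgeInd s(x, z.2) ω) _
      ((measurable_edgeInd _).mul (measurable_edgeInd _)) (hpe z), lintegral_edgeInd_mul hee]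
    · gcongr
      refine (lintegral_pairErr_le N M hM Λ z).trans ?_
      gcongr
      exact hS _ _ hne
    · intro ω ω' h
      simp [edgeInd, h s(x, z.1) (by simp), h s(x, z.2) (by simp)]
    · intro ω ω' h
      have hc : ∀ u, cluster H ω u = cluster H ω' u := fun u =>
        cluster_congr (fun e he => h e fun he' => by
          rcases he' with rfl | he'
          · exact hxe _ he
          · rw [Set.mem_singleton_iff.1 he'] at he; exact hxe _ he) u
      simp only [pairErr, hc]
  have hint := lintegral_mono (μ := bondMeasure V p) hpt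
  rw [lintegral_const_mul' _ _ (by simp), lintegral_finsetSum _ fun b _ => hterm b,
    lintegral_add_left (f := fun ω => (N : ℝ≥0∞) * (capSize N (cluster G ω x) : ℝ≥0∞))
      (measurable_const.mul (measurable_capSize N G x)),
    lintegral_const_mul' _ _ (by simp), lintegral_finsetSum _ fun z _ => hpair z] at hint
  rw [Finset.sum_congr rfl fun b _ => hLHS b, ← Finset.mul_sum] at hint
  refine hint.trans (add_le_add (by gcongr; exact hM x) ?_)
  refine (Finset.sum_le_sum hRHS).trans ?_
  rw [Finset.sum_const, nsmul_eq_mul]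
  gcongr
  have : nb.offDiag.card ≤ G.degree x ^ 2 := by
    rw [Finset.offDiag_card, hnb, SimpleGraph.card_neighborFinset_eq_degree, sq]
    exact Nat.sub_le _ _
  exact_mod_cast this

omit [Countable V] [G.LocallyFinite] in
/-- Passing from finite windows to the graph without the edges at `x`. -/
theorem capSize_window_iSup (N : ℕ) (ω : Sym2 V → Bool) (x b : V) (Λ : ℕ → Finset V)
    (hmono : Monotone Λ) (hcov : ∀ v, v ≠ x → ∃ n, v ∈ Λ n) :
    (capSize N (cluster (window G {x}ᶜ) ω b) : ℝ≥0∞) ≤
      ⨆ n, (capSize N (cluster (window G (Λ n : Set V)) ω b) : ℝ≥0∞) := by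
  set C := cluster (window G {x}ᶜ) ω b with hC
  have hmem : ∀ {u v : V} (_ : (openGraph (window G {x}ᶜ) ω).Walk u v),
      ∃ n, (openGraph (window G (Λ n : Set V)) ω).Reachable u v := by
    intro u v q
    induction q with
    | nil => exact ⟨0, SimpleGraph.Reachable.refl _⟩
    | @cons u w v huw q ih =>
      obtain ⟨n, hn⟩ := ih
      obtain ⟨i, hi⟩ := hcov u huw.1.2.1
      obtain ⟨j, hj⟩ := hcov w huw.1.2.2
      refine ⟨max n (max i j), SimpleGraph.Reachable.trans (SimpleGraph.Adj.reachable ?_)
        (hn.mono (openGraph_mono (window_mono G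
          (Finset.coe_subset.2 (hmono (le_max_left n (max i j))))) ω))⟩
      exact ⟨⟨huw.1.1, hmono ((le_max_left i j).trans (le_max_right n (max i j))) hi,
        hmono ((le_max_right i j).trans (le_max_right n (max i j))) hj⟩, huw.2⟩
  obtain ⟨T, hT, hTc⟩ := Set.exists_subset_encard_eq (le_capSize_iff.1 (le_refl (capSize N C))).1
  have hfin : T.Finite := Set.finite_of_encard_eq_coe hTc
  have : ∀ s : Finset V, (s : Set V) ⊆ C → ∃ n, (s : Set V) ⊆ cluster (window G (Λ n : Set V)) ω b := by
    classical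
    intro s
    induction s using Finset.induction_on with
    | empty => intro _; exact ⟨0, by simp⟩
    | @insert a s ha ih =>
      intro hs
      rw [Finset.coe_insert, Set.insert_subset_iff] at hs
      obtain ⟨n, hn⟩ := ih hs.2
      obtain ⟨q⟩ := hs.1
      obtain ⟨n', hn'⟩ := hmem q
      refine ⟨max n n', ?_⟩
      rw [Finset.coe_insert, Set.insert_subset_iff]
      exact ⟨cluster_mono (window_mono G (Finset.coe_subset.2 (hmono (le_max_right n n')))) ω b hn',
        hn.trans (cluster_mono (window_mono G (Finset.coe_subset.2 (hmono (le_max_left n n')))) ω b)⟩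
  obtain ⟨n, hn⟩ := this hfin.toFinset (by simpa using hT)
  refine le_trans ?_ (le_iSup _ n)
  refine Nat.cast_le.2 (le_capSize_iff.2 ⟨?_, capSize_le _ _⟩)
  rw [← hTc]
  exact Set.encard_le_encard (by simpa using hn)

open Classical in
/-- The one-step inequality. -/
theorem step_bound {d : ℕ} (N : ℕ) (M δ : ℝ≥0∞) (x : V) (hd : G.degree x = d)
    (hM : ∀ u, ∫⁻ ω, (capSize N (cluster G ω u) : ℝ≥0∞) ∂bondMeasure V p = M)
    (hS : ∀ a b, a ≠ b → pathSum G p a b ≤ δ) :
    (N : ℝ≥0∞) * (ENNReal.ofReal (p : ℝ) * ((d : ℝ≥0∞) * M)) ≤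
      (N : ℝ≥0∞) * M + (d : ℝ≥0∞) ^ 2 *
        (ENNReal.ofReal (p : ℝ) ^ 2 * (M * M + (N : ℝ≥0∞) * (δ * M))) +
        (N : ℝ≥0∞) * (ENNReal.ofReal (p : ℝ) * ((d : ℝ≥0∞) * (δ * M))) := by
  have : Nonempty V := ⟨x⟩
  obtain ⟨f, hf⟩ := exists_surjective_nat V
  set Λ : ℕ → Finset V := fun n => ((Finset.range (n + 1)).image f).erase x with hΛ
  have hmono : Monotone Λ := fun m n h =>
    Finset.erase_subset_erase _ (Finset.image_subset_image (by
      intro i hi; simp at hi ⊢; omega))
  have hcov : ∀ v, v ≠ x → ∃ n, v ∈ Λ n := by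
    intro v hv
    obtain ⟨i, rfl⟩ := hf v
    exact ⟨i, Finset.mem_erase.2 ⟨hv, Finset.mem_image.2 ⟨i, by simp, rfl⟩⟩⟩
  set nb := G.neighborFinset x with hnb
  have hcard : nb.card = d := by rw [hnb, SimpleGraph.card_neighborFinset_eq_degree, hd]
  let h : ℕ → V → ℝ≥0∞ := fun n b =>
    ∫⁻ ω, (capSize N (cluster (window G (Λ n : Set V)) ω b) : ℝ≥0∞) ∂bondMeasure V p
  have hmh : ∀ b, Monotone fun n => h n b := fun b m n hmn =>
    lintegral_mono fun ω => Nat.cast_le.2
      (capSize_mono (cluster_mono (window_mono G (Finset.coe_subset.2 (hmono hmn))) ω b))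
  have hb : ∀ b ∈ nb, M ≤ (⨆ n, h n b) + δ * M := by
    intro b hb
    have hne : b ≠ x := by
      rw [hnb, SimpleGraph.mem_neighborFinset] at hb
      exact hb.ne.symm
    conv_lhs => rw [← hM b]
    calc ∫⁻ ω, (capSize N (cluster G ω b) : ℝ≥0∞) ∂bondMeasure V p
        ≤ ∫⁻ ω, ((⨆ n, (capSize N (cluster (window G (Λ n : Set V)) ω b) : ℝ≥0∞)) +
            (if x ∈ cluster G ω b then (capSize N (cluster G ω b) : ℝ≥0∞) else 0))
              ∂bondMeasure V p := by
          refine lintegral_mono fun ω => ?_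
          split_ifs with hxb
          · exact le_add_self
          · rw [add_zero]
            refine le_trans (le_of_eq ?_) (capSize_window_iSup N ω x b Λ hmono hcov)
            rw [cluster_window_compl_eq (A := {x}) (by simpa using hxb)]
      _ = (∫⁻ ω, ⨆ n, (capSize N (cluster (window G (Λ n : Set V)) ω b) : ℝ≥0∞)
            ∂bondMeasure V p) + ∫⁻ ω, (if x ∈ cluster G ω b then
              (capSize N (cluster G ω b) : ℝ≥0∞) else 0) ∂bondMeasure V p :=
          lintegral_add_left (Measurable.iSup fun n => measurable_capSize N _ _) _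
      _ ≤ (⨆ n, h n b) + δ * M := by
          gcongr
          · rw [lintegral_iSup (fun n => measurable_capSize N _ _)]
            intro m n hmn ω
            exact Nat.cast_le.2
              (capSize_mono (cluster_mono (window_mono G (Finset.coe_subset.2 (hmono hmn))) ω b))
          · exact (lintegral_mem_cluster_le N M (fun u => (hM u).le) b x).trans
              (by gcongr; exact hS b x hne)
  have hwin : (N : ℝ≥0∞) * (ENNReal.ofReal (p : ℝ) * ∑ b ∈ nb, ⨆ n, h n b) ≤
      (N : ℝ≥0∞) * M + (d : ℝ≥0∞) ^ 2 *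
        (ENNReal.ofReal (p : ℝ) ^ 2 * (M * M + (N : ℝ≥0∞) * (δ * M))) := by
    rw [ENNReal.finsetSum_iSup_of_monotone fun b => hmh b, ENNReal.mul_iSup, ENNReal.mul_iSup]
    refine iSup_le fun n => ?_
    rw [← hd]
    exact window_step N M δ (fun u => (hM u).le) hS (Λ n) (Finset.notMem_erase x _)
  calc (N : ℝ≥0∞) * (ENNReal.ofReal (p : ℝ) * ((d : ℝ≥0∞) * M))
      = (N : ℝ≥0∞) * (ENNReal.ofReal (p : ℝ) * ∑ _b ∈ nb, M) := by
        rw [Finset.sum_const, nsmul_eq_mul, hcard]
    _ ≤ (N : ℝ≥0∞) * (ENNReal.ofReal (p : ℝ) * ∑ b ∈ nb, ((⨆ n, h n b) + δ * M)) := by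
        gcongr with b hb'
        exact hb b hb'
    _ = (N : ℝ≥0∞) * (ENNReal.ofReal (p : ℝ) * ∑ b ∈ nb, ⨆ n, h n b) +
        (N : ℝ≥0∞) * (ENNReal.ofReal (p : ℝ) * ((d : ℝ≥0∞) * (δ * M))) := by
        rw [Finset.sum_add_distrib, Finset.sum_const, nsmul_eq_mul, hcard, mul_add, mul_add]
    _ ≤ _ := by gcongr

end Expectation

end Vale.Agent.P165
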